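import Vale.Agent.P158.Prob

/-! Almost sure statements: countably many bad slopes, uniqueness of steps and trunks. -/

namespace Vale.Agent.P158

open Filter MeasureTheory
open scoped ENNReal

variable {G : Measure ℝ} [IsProbabilityMeasure G] {m : ℝ}

/-- Events with bounded overlap: countably many have positive probability. -/
theorem countable_of_overlap {Ω ι : Type*} [MeasurableSpace Ω] {μ : Measure Ω}
    [IsProbabilityMeasure μ] (A : ι → Set Ω) (hA : ∀ i, MeasurableSet (A i)) (C : ℕ)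
    (hC : ∀ ω, ∀ F : Finset ι, (∀ i ∈ F, ω ∈ A i) → F.card ≤ C) :
    {i | μ (A i) ≠ 0}.Countable := by
  classical
  have h1 : {i | μ (A i) ≠ 0} ⊆ ⋃ p : ℕ, {i | ((p : ℝ≥0∞) + 1)⁻¹ < μ (A i)} := by
    intro i hi
    have hi' : μ (A i) ≠ 0 := hi
    obtain ⟨p, hp⟩ := ENNReal.exists_inv_nat_lt hi'
    refine Set.mem_iUnion.2 ⟨p, lt_of_le_of_lt ?_ hp⟩
    exact ENNReal.inv_le_inv.2 (by exact le_self_add)
  refine Set.Countable.mono h1 (Set.countable_iUnion fun p => Set.Finite.countable ?_)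
  by_contra hinf
  obtain ⟨F, hF, hcard⟩ := Set.Infinite.exists_subset_card_eq hinf (C * (p + 1) + 1)
  have h2 : ∑ i ∈ F, μ (A i) ≤ C := by
    calc ∑ i ∈ F, μ (A i) = ∑ i ∈ F, ∫⁻ ω, (A i).indicator 1 ω ∂μ := by
          refine Finset.sum_congr rfl fun i _ => ?_
          rw [lintegral_indicator_one (hA i)]
      _ = ∫⁻ ω, ∑ i ∈ F, (A i).indicator 1 ω ∂μ := by
          rw [lintegral_finsetSum]
          exact fun i _ => measurable_one.indicator (hA i)
      _ ≤ ∫⁻ _, (C : ℝ≥0∞) ∂μ := by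
          refine lintegral_mono fun ω => ?_
          have : ∑ i ∈ F, (A i).indicator (1 : Ω → ℝ≥0∞) ω =
              ((F.filter fun i => ω ∈ A i).card : ℝ≥0∞) := by
            rw [Finset.card_filter]
            push_cast
            refine Finset.sum_congr rfl fun i _ => ?_
            by_cases h : ω ∈ A i
            · simp [h]
            · simp [h]
          rw [this]
          have h9 : (F.filter fun i => ω ∈ A i).card ≤ C :=
            hC ω _ fun i hi => (Finset.mem_filter.1 hi).2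
          exact Nat.cast_le.2 h9
      _ = C := by simp
  have h3 : (F.card : ℝ≥0∞) * ((p : ℝ≥0∞) + 1)⁻¹ ≤ ∑ i ∈ F, μ (A i) := by
    rw [← nsmul_eq_mul, ← Finset.sum_const]
    exact Finset.sum_le_sum fun i hi => (hF hi).le
  have h4 := h3.trans h2
  have h5 : (F.card : ℝ≥0∞) ≤ C * ((p : ℝ≥0∞) + 1) := by
    have h6 := mul_le_mul_left h4 ((p : ℝ≥0∞) + 1)
    rwa [mul_assoc, ENNReal.inv_mul_cancel (by simp) (by
      exact ENNReal.add_ne_top.2 ⟨ENNReal.natCast_ne_top p, ENNReal.one_ne_top⟩), mul_one] at h6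
  have h7 : F.card ≤ C * (p + 1) := by exact_mod_cast h5
  omega

/-- Exceptional slopes. -/
def badSlopes (G : Measure ℝ) [IsProbabilityMeasure G] : Set ℝ :=
  {m | ∃ (x y : V) (n : ℕ), PG G {t | Bad (wt t) m x y n} ≠ 0}

theorem countable_badSlopes [NullSingletonClass G] (hG : G (Set.Iio 0) = 0) :
    (badSlopes G).Countable := by
  have h1 : badSlopes G ⊆ ⋃ x : V, ⋃ y : V, ⋃ n : ℕ, ⋃ K : ℕ,
      {m | PG G {t | (Adm (wt t) ∧ PT (wt t) (HN (max x.1 y.1)) x y ≤ K) ∧
        Bad (wt t) m x y n} ≠ 0} := by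
    rintro m ⟨x, y, n, h⟩
    simp only [Set.mem_iUnion]
    refine ⟨x, y, n, ?_⟩
    by_contra hcon
    push Not at hcon
    apply h
    have h2 : ∀ K : ℕ, PG G {t | (Adm (wt t) ∧ PT (wt t) (HN (max x.1 y.1)) x y ≤ K) ∧
        Bad (wt t) m x y n} = 0 := fun K => by
      have := hcon K
      simpa using this
    have h3 := measure_iUnion_null h2
    have h4 : ∀ᵐ t ∂PG G, ¬ Bad (wt t) m x y n := by
      have h5 : ∀ᵐ t ∂PG G, t ∉ ⋃ K : ℕ, {t | (Adm (wt t) ∧
          PT (wt t) (HN (max x.1 y.1)) x y ≤ K) ∧ Bad (wt t) m x y n} :=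
        measure_eq_zero_iff_ae_notMem.1 h3
      filter_upwards [h5, ae_adm hG] with t ht hadm hbad
      obtain ⟨K, hK⟩ := exists_nat_ge (PT (wt t) (HN (max x.1 y.1)) x y)
      exact ht (Set.mem_iUnion.2 ⟨K, ⟨hadm, hK⟩, hbad⟩)
    rw [ae_iff] at h4
    simpa using h4
  refine Set.Countable.mono h1 ?_
  refine Set.countable_iUnion fun x => Set.countable_iUnion fun y =>
    Set.countable_iUnion fun n => Set.countable_iUnion fun K => ?_
  refine countable_of_overlap _ (fun m => ?_) ⌊4 * (K : ℝ) * ((n : ℝ) + 1) + 2⌋₊ ?_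
  · exact ((measurable_Adm.and (mle (measurable_PT _ _ _) measurable_const)).and
      (measurable_Bad m x y n)).setOf
  · intro t F hF
    rcases F.eq_empty_or_nonempty with rfl | ⟨m₀, hm₀⟩
    · simp
    obtain ⟨⟨hadm, hK⟩, -⟩ := hF m₀ hm₀
    exact Nat.le_floor (card_bad hadm x y n hK F fun m hm => (hF m hm).2)

theorem ae_good [NullSingletonClass G] (hG : G (Set.Iio 0) = 0) (hm : m ∉ badSlopes G) :
    ∀ᵐ t ∂PG G, Good (wt t) m := by
  have h1 : ∀ᵐ t ∂PG G, ∀ x y, Small (wt t) m x y := by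
    simp only [small_iff]
    rw [ae_all_iff]
    intro x
    rw [ae_all_iff]
    intro y
    rw [ae_all_iff]
    intro n
    rw [ae_iff]
    simp only [not_not]
    by_contra h
    exact hm ⟨x, y, n, h⟩
  have h2 : ∀ᵐ t ∂PG G, ∀ z a a' : V, ¬ ((Adm (wt t) ∧ a ≠ a') ∧
      (Step (wt t) m z a ∧ Step (wt t) m z a')) := by
    rw [ae_all_iff]
    intro z
    rw [ae_all_iff]
    intro a
    rw [ae_all_iff]
    intro a'
    rw [ae_iff]
    simp only [not_not]
    by_cases hadj : latt.Adj z a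
    · refine null_of_section ?_ ⟨s(z, a), hadj⟩ ?_
      · exact ((measurable_Adm.and (mconst _)).and
          ((measurable_Step m z a).and (measurable_Step m z a'))).setOf
      · rintro t s₀ s₁ hlt ⟨⟨hA0, hne⟩, -, hS0⟩ ⟨⟨hA1, -⟩, hS1, -⟩
        refine tie hA0 hA1 ?_ (fun x y hxy => ?_) hne hS0 hS1
        · rw [wt_update_self, wt_update_self]; exact hlt
        · rw [wt_update_of_ne _ _ _ hxy, wt_update_of_ne _ _ _ hxy]
    · convert measure_empty (μ := PG G)
      ext t
      simp only [Set.mem_ofPred_eq, Set.mem_empty_iff_false, iff_false]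
      rintro ⟨-, h, -⟩
      exact hadj h.1
  filter_upwards [ae_adm hG, h1, h2] with t h3 h4 h5
  refine ⟨h3, h4, fun z a a' ha ha' => ?_⟩
  by_contra hne
  exact h5 z a a' ⟨⟨h3, hne⟩, ha, ha'⟩

end Vale.Agent.P158
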