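import Vale.Agent.P158.Defs
import Mathlib.Combinatorics.SimpleGraph.Walk.Subwalks
import Mathlib.Combinatorics.SimpleGraph.Connectivity.Connected
import Mathlib.Order.ConditionallyCompleteLattice.Indexed
import Mathlib.Tactic.Linarith
import Mathlib.Tactic.Positivity

/-! Basic facts on restricted passage times. -/

namespace Vale.Agent.P158

open Filter

variable {w : V → V → ℝ} {S S' : Set V} {x y z : V}

/-- `x` and `y` are joined by a walk inside `S`. -/
def Conn (S : Set V) (x y : V) : Prop := ∃ p : latt.Walk x y, ∀ z ∈ p.support, z ∈ S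

theorem Conn.refl' (hx : x ∈ S) : Conn S x x :=
  ⟨SimpleGraph.Walk.nil, by simpa using hx⟩

theorem Conn.trans' (h1 : Conn S x y) (h2 : Conn S y z) : Conn S x z := by
  obtain ⟨p, hp⟩ := h1
  obtain ⟨q, hq⟩ := h2
  refine ⟨p.append q, fun u hu => ?_⟩
  rw [SimpleGraph.Walk.mem_support_append_iff] at hu
  rcases hu with hu | hu
  · exact hp u hu
  · exact hq u hu

theorem Conn.symm' (h : Conn S x y) : Conn S y x := by
  obtain ⟨p, hp⟩ := h
  exact ⟨p.reverse, fun u hu => hp u (by simpa using hu)⟩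

theorem Conn.of_adj (h : latt.Adj x y) (hx : x ∈ S) (hy : y ∈ S) : Conn S x y := by
  refine ⟨SimpleGraph.Walk.cons h SimpleGraph.Walk.nil, fun u hu => ?_⟩
  simp at hu
  rcases hu with rfl | rfl
  · exact hx
  · exact hy

theorem Conn.mono (hS : S ⊆ S') (h : Conn S x y) : Conn S' x y := by
  obtain ⟨p, hp⟩ := h
  exact ⟨p, fun u hu => hS (hp u hu)⟩

theorem adj_right (a b : ℤ) : latt.Adj ((a, b) : V) (a + 1, b) := by
  simp [latt]

theorem adj_left (a b : ℤ) : latt.Adj ((a, b) : V) (a - 1, b) := by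
  simp [latt]

theorem adj_up (a b : ℤ) : latt.Adj ((a, b) : V) (a, b + 1) := by
  simp [latt]

theorem adj_down (a b : ℤ) : latt.Adj ((a, b) : V) (a, b - 1) := by
  simp [latt]

theorem conn_left {N a b : ℤ} (h : a ≤ N) (n : ℕ) : Conn (HN N) (a, b) (a - n, b) := by
  induction n with
  | zero => simpa using Conn.refl' (S := HN N) (x := (a, b)) h
  | succ n ih =>
    refine ih.trans' ?_
    have : ((a - ((n + 1 : ℕ) : ℤ), b) : V) = ((a - n) - 1, b) := by
      push_cast; ext <;> simp; ring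
    rw [this]
    refine Conn.of_adj (adj_left _ _) ?_ ?_ <;> simp only [HN, Set.mem_ofPred_eq] <;> omega

theorem conn_up {N a b : ℤ} (h : a ≤ N) (n : ℕ) : Conn (HN N) (a, b) (a, b + n) := by
  induction n with
  | zero => simpa using Conn.refl' (S := HN N) (x := (a, b)) h
  | succ n ih =>
    refine ih.trans' ?_
    have : ((a, b + ((n + 1 : ℕ) : ℤ)) : V) = (a, (b + n) + 1) := by
      push_cast; ext <;> simp; ring
    rw [this]
    refine Conn.of_adj (adj_up _ _) ?_ ?_ <;> simp only [HN, Set.mem_ofPred_eq] <;> omega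

theorem conn_HN {N : ℤ} {x y : V} (hx : x ∈ HN N) (hy : y ∈ HN N) : Conn (HN N) x y := by
  have hx' : x.1 ≤ N := hx
  have hy' : y.1 ≤ N := hy
  have h1 : Conn (HN N) x (min x.1 y.1, x.2) := by
    have := conn_left (N := N) (a := x.1) (b := x.2) hx' (x.1 - min x.1 y.1).toNat
    rwa [Int.toNat_of_nonneg (by omega), sub_sub_cancel] at this
  have h2 : Conn (HN N) y (min x.1 y.1, y.2) := by
    have := conn_left (N := N) (a := y.1) (b := y.2) hy' (y.1 - min x.1 y.1).toNat
    rwa [Int.toNat_of_nonneg (by omega), sub_sub_cancel] at this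
  have h3 : Conn (HN N) (min x.1 y.1, x.2) (min x.1 y.1, y.2) := by
    rcases le_total x.2 y.2 with h | h
    · have := conn_up (N := N) (a := min x.1 y.1) (b := x.2) (by omega) (y.2 - x.2).toNat
      rwa [Int.toNat_of_nonneg (by omega), add_sub_cancel] at this
    · have := conn_up (N := N) (a := min x.1 y.1) (b := y.2) (by omega) (x.2 - y.2).toNat
      rw [Int.toNat_of_nonneg (by omega), add_sub_cancel] at this
      exact this.symm'
  exact (h1.trans' h3).trans' h2.symm'

theorem conn_univ (x y : V) : Conn Set.univ x y :=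
  (conn_HN (N := max x.1 y.1) (x := x) (y := y) (by simp [HN]) (by simp [HN])).mono
    (Set.subset_univ _)

theorem ww_nil : ww w (SimpleGraph.Walk.nil : latt.Walk x x) = 0 := rfl

theorem ww_cons (h : latt.Adj x y) (p : latt.Walk y z) :
    ww w (SimpleGraph.Walk.cons h p) = w x y + ww w p := by
  simp [ww]

theorem ww_nonneg (hw : Adm w) (p : latt.Walk x y) : 0 ≤ ww w p := by
  unfold ww
  refine List.sum_nonneg fun a ha => ?_
  obtain ⟨d, -, rfl⟩ := List.mem_map.1 ha
  exact (hw.pos _ _ d.adj).le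

theorem ww_append (p : latt.Walk x y) (q : latt.Walk y z) :
    ww w (p.append q) = ww w p + ww w q := by
  simp [ww]

theorem ww_reverse (hw : Adm w) (p : latt.Walk x y) : ww w p.reverse = ww w p := by
  induction p with
  | nil => rfl
  | cons h p ih =>
    rw [SimpleGraph.Walk.reverse_cons, ww_append, ih, ww_cons, ww_cons, ww_nil, hw.symm]
    ring

theorem bddBelow_ww (hw : Adm w) (S : Set V) (x y : V) :
    BddBelow (Set.range fun p : {p : latt.Walk x y // ∀ z ∈ p.support, z ∈ S} => ww w p.1) :=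
  ⟨0, by rintro _ ⟨p, rfl⟩; exact ww_nonneg hw _⟩

theorem PT_le (hw : Adm w) (p : latt.Walk x y) (hp : ∀ z ∈ p.support, z ∈ S) :
    PT w S x y ≤ ww w p :=
  ciInf_le (bddBelow_ww hw S x y) ⟨p, hp⟩

theorem PT_nonneg (hw : Adm w) : 0 ≤ PT w S x y :=
  Real.iInf_nonneg fun _ => ww_nonneg hw _

theorem exists_walk (_hw : Adm w) (hc : Conn S x y) {ε : ℝ} (hε : 0 < ε) :
    ∃ p : latt.Walk x y, (∀ z ∈ p.support, z ∈ S) ∧ ww w p < PT w S x y + ε := by
  obtain ⟨p0, hp0⟩ := hc
  have : Nonempty {p : latt.Walk x y // ∀ z ∈ p.support, z ∈ S} := ⟨⟨p0, hp0⟩⟩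
  obtain ⟨p, hp⟩ := exists_lt_of_ciInf_lt (lt_add_of_pos_right (PT w S x y) hε)
  exact ⟨p.1, p.2, hp⟩

theorem le_PT (hc : Conn S x y) {c : ℝ}
    (h : ∀ p : latt.Walk x y, (∀ z ∈ p.support, z ∈ S) → c ≤ ww w p) : c ≤ PT w S x y := by
  obtain ⟨p0, hp0⟩ := hc
  have : Nonempty {p : latt.Walk x y // ∀ z ∈ p.support, z ∈ S} := ⟨⟨p0, hp0⟩⟩
  exact le_ciInf fun p => h p.1 p.2

theorem PT_comm (hw : Adm w) : PT w S x y = PT w S y x := by
  have key : ∀ a b : V, PT w S a b ≤ PT w S b a := by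
    intro a b
    by_cases hc : Conn S b a
    · refine le_PT hc fun p hp => ?_
      rw [← ww_reverse hw p]
      exact PT_le hw _ fun u hu => hp u (by simpa using hu)
    · have hc' : ¬ Conn S a b := fun h => hc h.symm'
      have e1 : IsEmpty {p : latt.Walk a b // ∀ z ∈ p.support, z ∈ S} :=
        ⟨fun p => hc' ⟨p.1, p.2⟩⟩
      have e2 : IsEmpty {p : latt.Walk b a // ∀ z ∈ p.support, z ∈ S} :=
        ⟨fun p => hc ⟨p.1, p.2⟩⟩
      unfold PT
      rw [Real.iInf_of_isEmpty, Real.iInf_of_isEmpty]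
  exact le_antisymm (key x y) (key y x)

theorem PT_self (hw : Adm w) : PT w S x x = 0 := by
  by_cases hx : x ∈ S
  · refine le_antisymm ?_ (PT_nonneg hw)
    exact (PT_le hw SimpleGraph.Walk.nil (by simpa using hx)).trans_eq ww_nil
  · have e1 : IsEmpty {p : latt.Walk x x // ∀ z ∈ p.support, z ∈ S} :=
      ⟨fun p => hx (p.2 x p.1.start_mem_support)⟩
    unfold PT
    rw [Real.iInf_of_isEmpty]

theorem PT_triangle (hw : Adm w) (h1 : Conn S x y) (h2 : Conn S y z) :
    PT w S x z ≤ PT w S x y + PT w S y z := by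
  refine le_of_forall_pos_le_add fun ε hε => ?_
  obtain ⟨p, hp, hp'⟩ := exists_walk hw h1 (half_pos hε)
  obtain ⟨q, hq, hq'⟩ := exists_walk hw h2 (half_pos hε)
  have := PT_le (S := S) hw (p.append q) fun u hu => by
    rw [SimpleGraph.Walk.mem_support_append_iff] at hu
    rcases hu with hu | hu
    · exact hp u hu
    · exact hq u hu
  rw [ww_append] at this
  linarith

theorem PT_mono (hw : Adm w) (hS : S ⊆ S') (hc : Conn S x y) : PT w S' x y ≤ PT w S x y :=
  le_PT hc fun p hp => PT_le hw p fun u hu => hS (hp u hu)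

theorem PT_adj_le (hw : Adm w) (h : latt.Adj x y) (hx : x ∈ S) (hy : y ∈ S) :
    PT w S x y ≤ w x y := by
  have := PT_le (S := S) hw (SimpleGraph.Walk.cons h SimpleGraph.Walk.nil) fun u hu => by
    simp at hu
    rcases hu with rfl | rfl
    · exact hx
    · exact hy
  rwa [ww_cons, ww_nil, add_zero] at this

theorem T_triangle (hw : Adm w) (x y z : V) : T w x z ≤ T w x y + T w y z :=
  PT_triangle hw (conn_univ _ _) (conn_univ _ _)

theorem T_comm (hw : Adm w) (x y : V) : T w x y = T w y x := PT_comm hw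

theorem T_nonneg (hw : Adm w) (x y : V) : 0 ≤ T w x y := PT_nonneg hw

theorem T_self (hw : Adm w) (x : V) : T w x x = 0 := PT_self hw

theorem T_adj_le (hw : Adm w) {x y : V} (h : latt.Adj x y) : T w x y ≤ w x y :=
  PT_adj_le hw h (Set.mem_univ _) (Set.mem_univ _)

theorem T_le (hw : Adm w) (p : latt.Walk x y) : T w x y ≤ ww w p :=
  PT_le hw p fun _ _ => Set.mem_univ _

theorem T_le_PT (hw : Adm w) (hc : Conn S x y) : T w x y ≤ PT w S x y :=
  PT_mono hw (Set.subset_univ _) hc

theorem ww_mono {w w' : V → V → ℝ}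
    (h : ∀ x y, latt.Adj x y → w x y ≤ w' x y) (p : latt.Walk x y) : ww w p ≤ ww w' p := by
  unfold ww
  exact List.sum_le_sum fun d _ => h _ _ d.adj

theorem PT_mono_weight {w w' : V → V → ℝ} (hw : Adm w)
    (h : ∀ x y, latt.Adj x y → w x y ≤ w' x y) (hc : Conn S x y) :
    PT w S x y ≤ PT w' S x y :=
  le_PT hc fun p hp => (PT_le hw p hp).trans (ww_mono h p)

/-- Raising the weights raises passage times. -/
theorem T_mono_weight {w w' : V → V → ℝ} (hw : Adm w)
    (h : ∀ x y, latt.Adj x y → w x y ≤ w' x y) (x y : V) : T w x y ≤ T w' x y :=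
  PT_mono_weight hw h (conn_univ _ _)

theorem mem_HN_col (N j : ℤ) : ((N, j) : V) ∈ HN N := le_refl N

theorem HN_subset {N N' : ℤ} (h : N ≤ N') : HN N ⊆ HN N' := fun _ hx => le_trans hx h

theorem abs_g_le (hw : Adm w) {N : ℤ} (hx : x ∈ HN N) (hy : y ∈ HN N) (j : ℤ) :
    |g w N x y j| ≤ PT w (HN N) x y := by
  have hj := mem_HN_col N j
  have h1 := PT_triangle hw (conn_HN hx hy) (conn_HN hy hj)
  have h2 := PT_triangle hw (conn_HN hy hx) (conn_HN hx hj)
  rw [PT_comm hw (x := y) (y := x)] at h2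
  unfold g
  rw [abs_le]
  constructor <;> linarith

theorem g_swap (N : ℤ) (x y : V) (j : ℤ) : g w N y x j = - g w N x y j := by
  unfold g; ring

end Vale.Agent.P158
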