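import Mathlib.Combinatorics.SimpleGraph.Walk.Basic
import Mathlib.Combinatorics.SimpleGraph.Walk.Operations
import Mathlib.Algebra.Order.Archimedean.Real.Basic
import Mathlib.Algebra.BigOperators.Intervals
import Mathlib.Order.Interval.Finset.Defs
import Mathlib.Data.Int.Interval
import Mathlib.Analysis.Complex.Norm

/-! Definitions used in the statement: planar first-passage percolation. -/

namespace Vale.Agent.P158

/-- The vertices of the square lattice. -/
abbrev V : Type := ℤ × ℤ

/-- The nearest-neighbour graph of the square lattice. -/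
def latt : SimpleGraph V where
  Adj x y := |x.1 - y.1| + |x.2 - y.2| = 1
  symm := ⟨fun x y h => by
    rw [abs_sub_comm y.1 x.1, abs_sub_comm y.2 x.2]; exact h⟩
  loopless := ⟨fun x h => by simp at h⟩

/-- Sum of the edge weights along a walk. -/
def walkWeight (t : latt.edgeSet → ℝ) {x y : V} (p : latt.Walk x y) : ℝ :=
  (p.darts.map fun d => t ⟨d.edge, d.edge_mem⟩).sum

/-- Passage time: infimum of the weights of all walks. -/
noncomputable def passageTime (t : latt.edgeSet → ℝ) (x y : V) : ℝ :=
  ⨅ p : latt.Walk x y, walkWeight t p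

/-- Bigeodesics. -/
structure IsBigeodesic (t : latt.edgeSet → ℝ) (v : ℤ → V) : Prop where
  injective : Function.Injective v
  adj : ∀ i, latt.Adj (v i) (v (i + 1))
  geodesic : ∀ i j, i < j →
    ∑ k ∈ Finset.Ico i j, t ⟨s(v k, v (k + 1)), adj k⟩ = passageTime t (v i) (v j)

/-- The lattice point as a complex number, so that its norm is the Euclidean norm. -/
noncomputable def toC (x : V) : ℂ := ⟨(x.1 : ℝ), (x.2 : ℝ)⟩

/-- The path `r` has direction `θ`. -/
def HasDirection (r : ℕ → V) (θ : ℂ) : Prop :=
  Filter.Tendsto (fun n => toC (r n) / ((‖toC (r n)‖ : ℝ) : ℂ)) Filter.atTop (nhds θ)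

end Vale.Agent.P158
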