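import Vale.Agent.P158.Stmt
import Mathlib.Combinatorics.SimpleGraph.Paths
import Mathlib.Algebra.Order.Archimedean.Real.Basic
import Mathlib.Order.Filter.AtTopBot.Basic
import Mathlib.Algebra.BigOperators.Intervals

/-! Basic definitions for planar first-passage percolation. -/

namespace Vale.Agent.P158

open Filter

instance : DecidableRel latt.Adj := fun x y =>
  inferInstanceAs (Decidable (|x.1 - y.1| + |x.2 - y.2| = 1))

/-- The weight of a walk for a weight function `w` on ordered pairs. -/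
def ww (w : V → V → ℝ) {x y : V} (p : latt.Walk x y) : ℝ :=
  (p.darts.map fun d => w d.fst d.snd).sum

/-- Passage time restricted to walks inside `S`. -/
noncomputable def PT (w : V → V → ℝ) (S : Set V) (x y : V) : ℝ :=
  ⨅ p : {p : latt.Walk x y // ∀ z ∈ p.support, z ∈ S}, ww w p.1

/-- Passage time. -/
noncomputable def T (w : V → V → ℝ) (x y : V) : ℝ := PT w Set.univ x y

/-- Admissible weight functions. -/
structure Adm (w : V → V → ℝ) : Prop where
  symm : ∀ x y, w x y = w y x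
  pos : ∀ x y, latt.Adj x y → 0 < w x y

/-- The half plane left of column `N`. -/
def HN (N : ℤ) : Set V := {z | z.1 ≤ N}

/-- Difference of half-plane passage times to the vertex of height `j` in column `N`. -/
noncomputable def g (w : V → V → ℝ) (N : ℤ) (x y : V) (j : ℤ) : ℝ :=
  PT w (HN N) x (N, j) - PT w (HN N) y (N, j)

/-- Window of slope `m` and relative width `1/k` seen from `z`, in column `N`. -/
def J (m : ℝ) (z : V) (k : ℕ) (N j : ℤ) : Prop :=
  (k : ℝ) * |((j - z.2 : ℤ) : ℝ) - m * ((N - z.1 : ℤ) : ℝ)| ≤ ((N - z.1 : ℤ) : ℝ)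

/-- Small oscillation. -/
def Small (w : V → V → ℝ) (m : ℝ) (x y : V) : Prop :=
  ∀ n : ℕ, ∃ k : ℕ, ∃ᶠ N : ℤ in atTop, ∀ j j' : ℤ, J m x k N j → J m x k N j' →
    g w N x y j - g w N x y j' ≤ 1 / ((n : ℝ) + 1)

/-- `a` is a step from `z`. -/
def Step (w : V → V → ℝ) (m : ℝ) (z a : V) : Prop :=
  latt.Adj z a ∧
  (∀ n : ℕ, ∃ k : ℕ, ∃ᶠ N : ℤ in atTop, ∀ j : ℤ, J m z k N j →
    w z a - 1 / ((n : ℝ) + 1) ≤ g w N z a j) ∧
  (∀ n k : ℕ, ∀ᶠ N : ℤ in atTop, ∃ j : ℤ, J m z k N j ∧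
    w z a - 1 / ((n : ℝ) + 1) ≤ g w N z a j)

/-- Geodesic ray. -/
def IsRay (w : V → V → ℝ) (r : ℕ → V) : Prop :=
  (∀ i, latt.Adj (r i) (r (i + 1))) ∧
  ∀ n, ∑ i ∈ Finset.range n, w (r i) (r (i + 1)) = T w (r 0) (r n)

/-- The path goes to the right with slope `m`. -/
def Slope (m : ℝ) (r : ℕ → V) : Prop :=
  ∀ q : ℕ, ∀ᶠ i in atTop, (q : ℝ) * |((r i).2 : ℝ) - m * ((r i).1 : ℝ)| ≤ ((r i).1 : ℝ) ∧
    (q : ℝ) ≤ ((r i).1 : ℝ)

/-- Busemann function of a ray, normalised at its starting point. -/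
noncomputable def bus (w : V → V → ℝ) (r : ℕ → V) (x : V) : ℝ :=
  ⨅ n : ℕ, (T w x (r n) - T w (r 0) (r n))

/-- Environments. -/
abbrev Env : Type := latt.edgeSet → ℝ

/-- The weight function of an environment. -/
noncomputable def wt (t : Env) (x y : V) : ℝ :=
  if h : latt.Adj x y then t ⟨s(x, y), h⟩ else 0

end Vale.Agent.P158
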