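import Vale.Agent.P158.Mtp
import Mathlib.Order.Interval.Finset.Nat

/-! A single trunk has density zero. -/

namespace Vale.Agent.P158

open Filter MeasureTheory
open scoped ENNReal

variable {w : V → V → ℝ} {m : ℝ} {u v x y z a : V}

theorem T_col (hw : Adm w) (c : ℤ) {j j' : ℤ} (h : j ≤ j') :
    T w (c, j) (c, j') ≤ ∑ i ∈ Finset.Ico j j', w (c, i) (c, i + 1) := by
  induction j', h using Int.leInduction with
  | base => simp [T_self hw]
  | succ k hk ih =>
    have e : Finset.Ico j (k + 1) = insert k (Finset.Ico j k) := by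
      ext i; simp only [Finset.mem_Ico, Finset.mem_insert]; omega
    rw [e, Finset.sum_insert (by simp)]
    have h1 := T_triangle hw (c, j) (c, k) (c, k + 1)
    have h2 := T_adj_le hw (adj_up c k)
    linarith

theorem T_row (hw : Adm w) (c : ℤ) {j j' : ℤ} (h : j ≤ j') :
    T w (j, c) (j', c) ≤ ∑ i ∈ Finset.Ico j j', w (i, c) (i + 1, c) := by
  induction j', h using Int.leInduction with
  | base => simp [T_self hw]
  | succ k hk ih =>
    have e : Finset.Ico j (k + 1) = insert k (Finset.Ico j k) := by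
      ext i; simp only [Finset.mem_Ico, Finset.mem_insert]; omega
    rw [e, Finset.sum_insert (by simp)]
    have h1 := T_triangle hw (j, c) (k, c) (k + 1, c)
    have h2 := T_adj_le hw (adj_right k c)
    linarith

/-- Sum of the weights along the boundary of the square of radius `N`. -/
noncomputable def bsum (w : V → V → ℝ) (N : ℤ) : ℝ :=
  ∑ i ∈ Finset.Ico (-N) N, (w (N, i) (N, i + 1) + w (-N, i) (-N, i + 1) +
    w (i, N) (i + 1, N) + w (i, -N) (i + 1, -N))

theorem T_corner (hw : Adm w) {N : ℤ} (hN : 0 ≤ N) {b : V} (h1 : -N ≤ b.1) (h2 : b.1 ≤ N)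
    (h3 : -N ≤ b.2) (h4 : b.2 ≤ N) (hb : b.1 = N ∨ b.1 = -N ∨ b.2 = N ∨ b.2 = -N) :
    T w b (N, N) ≤ bsum w N := by
  obtain ⟨b1, b2⟩ := b
  simp only at h1 h2 h3 h4 hb
  unfold bsum
  simp only [Finset.sum_add_distrib]
  have nn : ∀ (c : ℤ) (s : Finset ℤ), 0 ≤ ∑ i ∈ s, w (c, i) (c, i + 1) := fun c s =>
    Finset.sum_nonneg fun i _ => (hw.pos _ _ (adj_up c i)).le
  have nn' : ∀ (c : ℤ) (s : Finset ℤ), 0 ≤ ∑ i ∈ s, w (i, c) (i + 1, c) := fun c s =>
    Finset.sum_nonneg fun i _ => (hw.pos _ _ (adj_right i c)).le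
  have sub : ∀ (c j : ℤ), -N ≤ j → ∑ i ∈ Finset.Ico j N, w (c, i) (c, i + 1) ≤
      ∑ i ∈ Finset.Ico (-N) N, w (c, i) (c, i + 1) := fun c j hj =>
    Finset.sum_le_sum_of_subset_of_nonneg (Finset.Ico_subset_Ico_left hj)
      fun i _ _ => (hw.pos _ _ (adj_up c i)).le
  have sub' : ∀ (c j : ℤ), -N ≤ j → ∑ i ∈ Finset.Ico j N, w (i, c) (i + 1, c) ≤
      ∑ i ∈ Finset.Ico (-N) N, w (i, c) (i + 1, c) := fun c j hj =>
    Finset.sum_le_sum_of_subset_of_nonneg (Finset.Ico_subset_Ico_left hj)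
      fun i _ _ => (hw.pos _ _ (adj_right i c)).le
  have n1 := nn N (Finset.Ico (-N) N)
  have n2 := nn (-N) (Finset.Ico (-N) N)
  have n3 := nn' N (Finset.Ico (-N) N)
  have n4 := nn' (-N) (Finset.Ico (-N) N)
  rcases hb with hb | hb | hb | hb
  · subst hb
    have := (T_col hw b1 h4).trans (sub b1 b2 h3)
    linarith
  · subst hb
    have t1 := (T_col hw (-N) h4).trans (sub (-N) b2 h3)
    have t2 := (T_row hw N (by omega : -N ≤ N))
    have t3 := T_triangle hw (-N, b2) (-N, N) (N, N)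
    linarith
  · subst hb
    have := (T_row hw b2 h2).trans (sub' b2 b1 h1)
    linarith
  · subst hb
    have t1 := (T_row hw (-N) h2).trans (sub' (-N) b1 h1)
    have t2 := (T_col hw N (by omega : -N ≤ N))
    have t3 := T_triangle hw (b1, -N) (N, -N) (N, N)
    linarith

/-- The box of radius `n`. -/
noncomputable def Box (n : ℤ) : Finset V := Finset.Icc (-n) n ×ˢ Finset.Icc (-n) n

theorem mem_Box {n : ℤ} {v : V} :
    v ∈ Box n ↔ (-n ≤ v.1 ∧ v.1 ≤ n) ∧ (-n ≤ v.2 ∧ v.2 ≤ n) := by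
  unfold Box
  rw [Finset.mem_product, Finset.mem_Icc, Finset.mem_Icc]

theorem T_exit (hw : Adm w) {n : ℤ} (hn : 0 ≤ n) {a b : V} (ha : a ∈ Box n) (hb : b ∉ Box n)
    (hab : latt.Adj a b) : T w b (n + 1, n + 1) ≤ bsum w (n + 1) := by
  rw [mem_Box] at ha hb
  rcases adj_cases hab with ⟨e1, e2⟩ | ⟨e1, e2⟩ | ⟨e1, e2⟩ | ⟨e1, e2⟩ <;>
    refine T_corner hw (by omega) ?_ ?_ ?_ ?_ ?_ <;> omega

open Classical in
/-- Weight of the trunk step at `v`. -/
noncomputable def tw (w : V → V → ℝ) (m : ℝ) (v : V) : ℝ :=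
  if Trunk w m v then w v (phi w m v) else 0

theorem box_bound (hw : Adm w) (hi : InjT w m)
    (hs : ∀ u v, Trunk w m u → Trunk w m v → Same w m u v) {n : ℤ} (hn : 0 ≤ n) :
    ∑ v ∈ Box n, tw w m v ≤ 2 * bsum w (n + 1) := by
  classical
  have hb0 : 0 ≤ bsum w (n + 1) := by
    unfold bsum
    refine Finset.sum_nonneg fun i _ => ?_
    have h1 := (hw.pos _ _ (adj_up (n + 1) i)).le
    have h2 := (hw.pos _ _ (adj_up (-(n + 1)) i)).le
    have h3 := (hw.pos _ _ (adj_right i (n + 1))).le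
    have h4 := (hw.pos _ _ (adj_right i (-(n + 1)))).le
    linarith
  by_cases hex : ∃ v ∈ Box n, Trunk w m v
  swap
  · push Not at hex
    have : ∑ v ∈ Box n, tw w m v = 0 := Finset.sum_eq_zero fun v hv => by
      unfold tw; rw [if_neg (hex v hv)]
    rw [this]; linarith
  obtain ⟨v₀, hv₀, hT₀⟩ := hex
  obtain ⟨γ, hγ0, hγ⟩ := exists_bi hw hT₀
  have hadj : ∀ i, latt.Adj (γ i) (γ (i + 1)) := by
    intro i
    have := (hγ i).1.toOrb.1.1 0
    rwa [zero_add, orb_zero, bi_orb hγ, Nat.cast_one] at this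
  have hr : ∀ i : ℤ, IsRay w (fun k : ℕ => γ (i + k)) := by
    intro i
    have := (hγ i).1.toOrb.1
    have e : orb w m (γ i) = fun k : ℕ => γ (i + k) := funext fun k => bi_orb hγ i k
    rwa [e] at this
  have hinj : Function.Injective γ := by
    intro i j hij
    by_contra hne
    have key : ∀ i j : ℤ, i < j → γ i ≠ γ j := by
      intro i j hlt h
      have := (hr i).injective hw (a₁ := 0) (a₂ := (j - i).toNat) (by
        rw [Int.toNat_of_nonneg (by omega)]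
        simpa using h)
      omega
    rcases lt_or_gt_of_ne hne with h | h
    · exact key i j h hij
    · exact key j i h hij.symm
  have hcov : ∀ v, Trunk w m v → ∃ i, γ i = v := fun v hv => by
    obtain ⟨i, hi'⟩ := bi_cover hw hi hγ hv (hs _ _ hv (hγ 0).1)
    exact ⟨i, hi'.symm⟩
  set I : Finset ℤ := ((Box n).preimage γ hinj.injOn) with hI
  have hmemI : ∀ i, i ∈ I ↔ γ i ∈ Box n := fun i => by rw [hI, Finset.mem_preimage]
  have hIne : I.Nonempty := ⟨0, (hmemI 0).2 (hγ0 ▸ hv₀)⟩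
  set i₀ := I.min' hIne with hi₀
  set i₁ := I.max' hIne with hi₁
  have h01 : i₀ ≤ i₁ := I.min'_le_max' hIne
  have hsum : ∑ v ∈ Box n, tw w m v = ∑ i ∈ I, w (γ i) (γ (i + 1)) := by
    rw [← Finset.sum_filter_of_ne (p := fun v => Trunk w m v)]
    · symm
      refine Finset.sum_bij (fun i _ => γ i) (fun i hi => ?_) (fun i _ j _ h => hinj h)
        (fun v hv => ?_) (fun i _ => ?_)
      · rw [Finset.mem_filter]
        exact ⟨(hmemI i).1 hi, (hγ i).1⟩
      · rw [Finset.mem_filter] at hv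
        obtain ⟨i, rfl⟩ := hcov v hv.2
        exact ⟨i, (hmemI i).2 hv.1, rfl⟩
      · unfold tw
        rw [if_pos (hγ i).1, (hγ i).2]
    · intro v _ hv
      by_contra h
      exact hv (by unfold tw; rw [if_neg h])
  have hsub : I ⊆ Finset.Ico (i₀ - 1) (i₁ + 1) := by
    intro i hi
    rw [Finset.mem_Ico]
    have h1 := I.min'_le i hi
    have h2 := I.le_max' i hi
    omega
  have hle : ∑ i ∈ I, w (γ i) (γ (i + 1)) ≤
      ∑ i ∈ Finset.Ico (i₀ - 1) (i₁ + 1), w (γ i) (γ (i + 1)) :=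
    Finset.sum_le_sum_of_subset_of_nonneg hsub fun i _ _ => (hw.pos _ _ (hadj i)).le
  have hT : ∑ i ∈ Finset.Ico (i₀ - 1) (i₁ + 1), w (γ i) (γ (i + 1)) =
      T w (γ (i₀ - 1)) (γ (i₁ + 1)) := by
    have h1 := (hr (i₀ - 1)).2 (i₁ + 1 - (i₀ - 1)).toNat
    simp only [Nat.cast_zero, add_zero] at h1
    rw [Int.toNat_of_nonneg (by omega), add_sub_cancel] at h1
    rw [← h1]
    symm
    refine Finset.sum_bij (fun (k : ℕ) _ => i₀ - 1 + (k : ℤ)) (fun k hk => ?_)
      (fun k _ l _ h => by omega) (fun i hi => ?_) (fun k _ => ?_)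
    · rw [Finset.mem_range] at hk
      rw [Finset.mem_Ico]
      omega
    · rw [Finset.mem_Ico] at hi
      refine ⟨(i - (i₀ - 1)).toNat, ?_, ?_⟩
      · rw [Finset.mem_range]; omega
      · omega
    · push_cast
      rw [add_assoc]
  have hout0 : γ (i₀ - 1) ∉ Box n := fun h => by
    have := I.min'_le _ ((hmemI _).2 h)
    omega
  have hout1 : γ (i₁ + 1) ∉ Box n := fun h => by
    have := I.le_max' _ ((hmemI _).2 h)
    omega
  have hin0 : γ i₀ ∈ Box n := (hmemI _).1 (I.min'_mem hIne)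
  have hin1 : γ i₁ ∈ Box n := (hmemI _).1 (I.max'_mem hIne)
  have hA0 : latt.Adj (γ i₀) (γ (i₀ - 1)) := by
    have := hadj (i₀ - 1)
    rw [sub_add_cancel] at this
    exact this.symm
  have t0 := T_exit hw hn hin0 hout0 hA0
  have t1 := T_exit hw hn hin1 hout1 (hadj i₁)
  have t2 := T_triangle hw (γ (i₀ - 1)) (n + 1, n + 1) (γ (i₁ + 1))
  rw [T_comm hw (n + 1, n + 1) (γ (i₁ + 1))] at t2
  rw [hsum]
  linarith

variable {G : Measure ℝ} [IsProbabilityMeasure G]

theorem measurable_tw (m : ℝ) (v : V) : Measurable fun t : Env => tw (wt t) m v := by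
  unfold tw
  exact Measurable.ite (measurable_Trunk m v).setOf
    (m_subst (F := fun t y => wt t v y) (fun y => measurable_wt v y) (measurable_phi m v))
    measurable_const

theorem tw_nonneg (hw : Adm w) (v : V) : 0 ≤ tw w m v := by
  unfold tw
  split_ifs with h
  · have := h.toOrb.1.1 0
    rw [zero_add, orb_zero] at this
    exact (hw.pos _ _ this).le
  · exact le_rfl

theorem tw_sh (hw : Adm w) (u : V) (m : ℝ) (v : V) : tw (sh u w) m v = tw w m (v + u) := by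
  unfold tw
  by_cases h : Trunk w m (v + u)
  · rw [if_pos h, if_pos ((Trunk_sh hw u m v).2 h)]
    change w (v + u) (phi (sh u w) m v + u) = _
    rw [phi_sh hw]
  · rw [if_neg h, if_neg (fun h' => h ((Trunk_sh hw u m v).1 h'))]

theorem lintegral_wt (x y : V) (h : latt.Adj x y) :
    ∫⁻ t, ENNReal.ofReal (wt t x y) ∂PG G = ∫⁻ s, ENNReal.ofReal s ∂G := by
  have hmp : MeasurePreserving (fun t : Env => t ⟨s(x, y), h⟩) (PG G) G :=
    measurePreserving_eval_infinitePi (fun _ : latt.edgeSet => G) _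
  rw [← hmp.lintegral_comp ENNReal.measurable_ofReal]
  refine lintegral_congr fun t => ?_
  unfold wt
  rw [dif_pos h]

theorem lintegral_bsum_le (hadm : ∀ᵐ t ∂PG G, Adm (wt t)) {N : ℤ} (hN : 0 ≤ N) :
    ∫⁻ t, ENNReal.ofReal (bsum (wt t) N) ∂PG G ≤
      (8 * N.toNat : ℕ) * ∫⁻ s, ENNReal.ofReal s ∂G := by
  have h1 : ∫⁻ t, ENNReal.ofReal (bsum (wt t) N) ∂PG G ≤
      ∫⁻ t, ∑ i ∈ Finset.Ico (-N) N, (ENNReal.ofReal (wt t (N, i) (N, i + 1)) +
        ENNReal.ofReal (wt t (-N, i) (-N, i + 1)) + ENNReal.ofReal (wt t (i, N) (i + 1, N)) +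
        ENNReal.ofReal (wt t (i, -N) (i + 1, -N))) ∂PG G := by
    refine lintegral_mono_ae ?_
    filter_upwards [hadm] with t ht
    unfold bsum
    have h1 : ∀ i : ℤ, 0 ≤ wt t (N, i) (N, i + 1) := fun i => (ht.pos _ _ (adj_up _ _)).le
    have h2 : ∀ i : ℤ, 0 ≤ wt t (-N, i) (-N, i + 1) := fun i => (ht.pos _ _ (adj_up _ _)).le
    have h3 : ∀ i : ℤ, 0 ≤ wt t (i, N) (i + 1, N) := fun i => (ht.pos _ _ (adj_right _ _)).le
    have h4 : ∀ i : ℤ, 0 ≤ wt t (i, -N) (i + 1, -N) := fun i =>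
      (ht.pos _ _ (adj_right _ _)).le
    rw [ENNReal.ofReal_sum_of_nonneg fun i _ =>
      add_nonneg (add_nonneg (add_nonneg (h1 i) (h2 i)) (h3 i)) (h4 i)]
    refine Finset.sum_le_sum fun i _ => ?_
    refine ENNReal.ofReal_add_le.trans (add_le_add ?_ le_rfl)
    refine ENNReal.ofReal_add_le.trans (add_le_add ?_ le_rfl)
    exact ENNReal.ofReal_add_le
  refine h1.trans (le_of_eq ?_)
  have hm : ∀ x y : V, Measurable fun t : Env => ENNReal.ofReal (wt t x y) := fun x y =>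
    ENNReal.measurable_ofReal.comp (measurable_wt x y)
  have hs : ∀ i : ℤ, Measurable fun t : Env => (ENNReal.ofReal (wt t (N, i) (N, i + 1)) +
        ENNReal.ofReal (wt t (-N, i) (-N, i + 1)) + ENNReal.ofReal (wt t (i, N) (i + 1, N)) +
        ENNReal.ofReal (wt t (i, -N) (i + 1, -N))) := fun i =>
    (((hm _ _).add (hm _ _)).add (hm _ _)).add (hm _ _)
  rw [lintegral_finsetSum _ fun i _ => hs i]
  have h2 : ∀ i ∈ Finset.Ico (-N) N, ∫⁻ t, (ENNReal.ofReal (wt t (N, i) (N, i + 1)) +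
        ENNReal.ofReal (wt t (-N, i) (-N, i + 1)) + ENNReal.ofReal (wt t (i, N) (i + 1, N)) +
        ENNReal.ofReal (wt t (i, -N) (i + 1, -N))) ∂PG G =
      4 * ∫⁻ s, ENNReal.ofReal s ∂G := by
    intro i _
    rw [lintegral_add_right _ (hm _ _), lintegral_add_right _ (hm _ _),
      lintegral_add_right _ (hm _ _), lintegral_wt _ _ (adj_up _ _),
      lintegral_wt _ _ (adj_up _ _), lintegral_wt _ _ (adj_right _ _),
      lintegral_wt _ _ (adj_right _ _)]
    ring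
  rw [Finset.sum_congr rfl h2, Finset.sum_const, Int.card_Ico, nsmul_eq_mul, ← mul_assoc]
  congr 1
  have e : (N - -N).toNat = 2 * N.toNat := by omega
  rw [e]
  push_cast
  ring

theorem ae_no_trunk [NullSingletonClass G] (hmean : ∫⁻ s, ENNReal.ofReal s ∂G ≠ ∞)
    (hgood : ∀ᵐ t ∂PG G, Good (wt t) m) : ∀ᵐ t ∂PG G, ∀ v, ¬ Trunk (wt t) m v := by
  have hadm : ∀ᵐ t ∂PG G, Adm (wt t) := by
    filter_upwards [hgood] with t ht
    exact ht.adm
  set M := ∫⁻ s, ENNReal.ofReal s ∂G with hM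
  set q := ∫⁻ t, ENNReal.ofReal (tw (wt t) m 0) ∂PG G with hq
  have hmt : ∀ v, Measurable fun t : Env => ENNReal.ofReal (tw (wt t) m v) := fun v =>
    ENNReal.measurable_ofReal.comp (measurable_tw m v)
  have hqv : ∀ v : V, ∫⁻ t, ENNReal.ofReal (tw (wt t) m v) ∂PG G = q := by
    intro v
    rw [hq, ← (mp_sh (G := G) v).lintegral_comp (hmt 0)]
    refine lintegral_congr_ae ?_
    filter_upwards [hadm] with t ht
    rw [wt_shE, tw_sh ht, zero_add]
  have hbound : ∀ n : ℕ, ((2 * n + 1 : ℕ) : ℝ≥0∞) * q ≤ 16 * M := by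
    intro n
    have h1 : ∫⁻ t, ∑ v ∈ Box n, ENNReal.ofReal (tw (wt t) m v) ∂PG G ≤
        ∫⁻ t, 2 * ENNReal.ofReal (bsum (wt t) ((n : ℤ) + 1)) ∂PG G := by
      refine lintegral_mono_ae ?_
      filter_upwards [hadm, ae_inj (m := m) hadm, ae_all_same hgood] with t a1 a2 a3
      rw [← ENNReal.ofReal_sum_of_nonneg fun v _ => tw_nonneg a1 v]
      refine (ENNReal.ofReal_le_ofReal (box_bound a1 a2 a3 (Int.natCast_nonneg n))).trans ?_
      rw [ENNReal.ofReal_mul (by norm_num)]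
      simp
    rw [lintegral_finsetSum _ fun v _ => hmt v, Finset.sum_congr rfl fun v _ => hqv v,
      Finset.sum_const, lintegral_const_mul' _ _ (by norm_num)] at h1
    have h2 := h1.trans (mul_le_mul_right (lintegral_bsum_le hadm (by omega)) 2)
    have hc : (Box n).card = (2 * n + 1) * (2 * n + 1) := by
      unfold Box
      rw [Finset.card_product, Int.card_Icc]
      have : ((n : ℤ) + 1 - -(n : ℤ)).toNat = 2 * n + 1 := by omega
      rw [this]
    rw [hc, nsmul_eq_mul] at h2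
    have e : ((n : ℤ) + 1).toNat = n + 1 := by omega
    rw [e] at h2
    have h3 : ((2 * n + 1 : ℕ) : ℝ≥0∞) * (((2 * n + 1 : ℕ) : ℝ≥0∞) * q) ≤
        ((2 * n + 1 : ℕ) : ℝ≥0∞) * (16 * M) := by
      calc ((2 * n + 1 : ℕ) : ℝ≥0∞) * (((2 * n + 1 : ℕ) : ℝ≥0∞) * q)
          = (((2 * n + 1) * (2 * n + 1) : ℕ) : ℝ≥0∞) * q := by push_cast; ring
        _ ≤ 2 * (((8 * (n + 1) : ℕ) : ℝ≥0∞) * M) := h2
        _ = ((16 * (n + 1) : ℕ) : ℝ≥0∞) * M := by push_cast; ring
        _ ≤ ((16 * (2 * n + 1) : ℕ) : ℝ≥0∞) * M :=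
            mul_le_mul_left (Nat.cast_le.2 (by omega)) _
        _ = ((2 * n + 1 : ℕ) : ℝ≥0∞) * (16 * M) := by push_cast; ring
    have hne : ((2 * n + 1 : ℕ) : ℝ≥0∞) ≠ 0 := by
      rw [Ne, Nat.cast_eq_zero]; omega
    exact (ENNReal.mul_le_mul_iff_right hne (ENNReal.natCast_ne_top _)).1 h3
  have hq0 : q = 0 := by
    by_contra hne
    have hfin : (16 * M : ℝ≥0∞) ≠ ∞ := ENNReal.mul_ne_top (by norm_num) hmean
    obtain ⟨n, hn⟩ := ENNReal.exists_nat_mul_gt hne hfin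
    have h1 := hbound n
    have h2 : (n : ℝ≥0∞) * q ≤ ((2 * n + 1 : ℕ) : ℝ≥0∞) * q :=
      mul_le_mul_left (Nat.cast_le.2 (by omega)) _
    exact absurd (hn.trans_le h2) (not_lt.2 h1)
  have h0 : ∀ᵐ t ∂PG G, ¬ Trunk (wt t) m 0 := by
    rw [hq, lintegral_eq_zero_iff (hmt 0)] at hq0
    filter_upwards [hq0, hadm] with t h1 h2 h3
    have h4 : tw (wt t) m 0 ≤ 0 := ENNReal.ofReal_eq_zero.1 h1
    unfold tw at h4
    rw [if_pos h3] at h4
    have h5 := h3.toOrb.1.1 0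
    rw [zero_add, orb_zero] at h5
    exact absurd h4 (not_le.2 (h2.pos _ _ h5))
  filter_upwards [hadm, ae_shift h0] with t h1 h2 v hv
  apply h2 v
  rw [wt_shE, Trunk_sh h1, zero_add]
  exact hv

end Vale.Agent.P158
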