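import Vale.Agent.P158.Trunk

/-! Tie breaking: raising an edge weight on a trunk creates positive regret. -/

namespace Vale.Agent.P158

open Filter

variable {w₀ w₁ : V → V → ℝ} {m : ℝ} {z a : V}

theorem tiebreak (h0 : Adm w₀) (h1 : Adm w₁) (hle : ∀ x y, w₀ x y ≤ w₁ x y)
    (hsm0 : ∀ x y, Small w₀ m x y) (hsm1 : ∀ x y, Small w₁ m x y)
    (hz0 : Orb w₀ m z) (hza0 : phi w₀ m z = a) (hz1 : Orb w₁ m z) (hza1 : phi w₁ m z = a)
    {r : ℕ → V} (hr0 : IsRay w₀ r) (hr1 : IsRay w₁ r) (hs : Slope m r)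
    (heq : ∀ i, w₀ (r i) (r (i + 1)) = w₁ (r i) (r (i + 1))) :
    w₁ z a - w₀ z a ≤ Reg w₁ m (r 0) z := by
  have hB1 : bus w₁ r z - bus w₁ r a = w₁ z a := by
    rw [bus_eq h1 hr1 hs hz1.1 hz1.2 (hsm1 z a)]
    have := bus_step_ray h1 hz1.1 0
    rw [zero_add] at this
    have e : orb w₁ m z 1 = a := by rw [← hza1]; rfl
    rw [orb_zero, e] at this
    exact this
  have hB0 : bus w₀ r z - bus w₀ r a = w₀ z a := by
    rw [bus_eq h0 hr0 hs hz0.1 hz0.2 (hsm0 z a)]
    have := bus_step_ray h0 hz0.1 0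
    rw [zero_add] at this
    have e : orb w₀ m z 1 = a := by rw [← hza0]; rfl
    rw [orb_zero, e] at this
    exact this
  have hmono : bus w₀ r a ≤ bus w₁ r a := by
    refine le_of_tendsto_of_tendsto' (tendsto_bus h0 hr0 a) (tendsto_bus h1 hr1 a) fun n => ?_
    have e1 : T w₀ (r 0) (r n) = T w₁ (r 0) (r n) := by
      rw [← hr0.2 n, ← hr1.2 n]
      exact Finset.sum_congr rfl fun i _ => heq i
    have e2 := T_mono_weight h0 (fun x y _ => hle x y) a (r n)
    linarith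
  have hc := bus_eq h1 hr1 hs hz1.1 hz1.2 (hsm1 (r 0) z)
  have e3 : bus w₁ (orb w₁ m z) z = 0 := by
    have := bus_self h1 hz1.1 0
    rwa [orb_zero, T_self h1, neg_zero] at this
  have e4 : bus w₁ r (r 0) = 0 := by
    have := bus_self h1 hr1 0
    rwa [T_self h1, neg_zero] at this
  have e5 : bus w₀ r (r 0) = 0 := by
    have := bus_self h0 hr0 0
    rwa [T_self h0, neg_zero] at this
  have e6 := bus_sub_le h0 hr0 (r 0) z
  have e7 := T_mono_weight h0 (fun x y _ => hle x y) (r 0) z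
  unfold Reg
  linarith

end Vale.Agent.P158
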