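import Vale.Agent.P158.NoThree
import Vale.Agent.P158.TieBreak
import Mathlib.Algebra.Order.Archimedean.Basic

/-! Deterministic consequences: regrets to nearest trunks, tie breaking, box bound. -/

namespace Vale.Agent.P158

open Filter

variable {w : V → V → ℝ} {m : ℝ} {u v x y z a : V}

/-- Some nearest trunk has uniformly positive regret at `v`. -/
def Aev (w : V → V → ℝ) (m : ℝ) (n : ℕ) (v : V) : Prop :=
  ∃ u, Nst w m u v ∧ ∀ x, Trunk w m x → Same w m x u → 1 / ((n : ℝ) + 1) < Reg w m x v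

theorem Nst.congr (h : Nst w m u v) (hs : Same w m v x) : Nst w m u x := by
  obtain ⟨hu, hns, d, ⟨a, b, ha, hb, hau, hbv, p, hp⟩, hmin⟩ := h
  refine ⟨hu, fun h => hns (h.trans hs.symm), d, ⟨a, b, ha, hb, hau, hbv.trans hs, p, hp⟩, ?_⟩
  rintro u' d' hu' hns' ⟨a', b', ha', hb', hau', hbv', p', hp'⟩
  exact hmin u' d' hu' (fun h => hns' (h.trans hs))
    ⟨a', b', ha', hb', hau', hbv'.trans hs.symm, p', hp'⟩

theorem Aev.of_phi (hw : Adm w) {n : ℕ} (hv : Trunk w m v) (h : Aev w m n (phi w m v)) :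
    Aev w m n v := by
  obtain ⟨u, hu, hx⟩ := h
  exact ⟨u, hu.congr (same_orb w m v 1), fun x hxT hxu =>
    (hx x hxT hxu).trans_le (Reg.phi_le hw hv.toOrb)⟩

theorem Aev.fail (hw : Adm w) (hi : InjT w m) (hl : LeftUnb w m) (hv : Trunk w m v) (n : ℕ) :
    ∃ k, ¬ Aev w m n (orb w m v k) := by
  by_contra hcon
  push Not at hcon
  choose u hu hux using hcon
  have hu' : ∀ k, Nst w m (u k) v := fun k => (hu k).congr (same_orb w m v k)
  obtain ⟨u₁, u₂, hT1, hT2, h12⟩ : ∃ u₁ u₂, Trunk w m u₁ ∧ Trunk w m u₂ ∧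
      ∀ k, Same w m (u k) u₁ ∨ Same w m (u k) u₂ := by
    by_cases h : ∀ k, Same w m (u k) (u 0)
    · exact ⟨u 0, u 0, (hu' 0).1, (hu' 0).1, fun k => Or.inl (h k)⟩
    · push Not at h
      obtain ⟨k₂, hk₂⟩ := h
      refine ⟨u 0, u k₂, (hu' 0).1, (hu' k₂).1, fun k => ?_⟩
      by_contra h3
      push Not at h3
      exact no_three hw hi hl (hu' k) (hu' 0) (hu' k₂) h3.1 h3.2 (fun h => hk₂ h.symm)
  have hε : (0 : ℝ) < 1 / ((n : ℝ) + 1) := by positivity
  obtain ⟨k, hk1, hk2⟩ := (((Reg.tendsto hw hv.toOrb u₁).eventually (gt_mem_nhds hε)).and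
    ((Reg.tendsto hw hv.toOrb u₂).eventually (gt_mem_nhds hε))).exists
  rcases h12 k with h | h
  · exact lt_irrefl _ ((hux k u₁ hT1 h.symm).trans hk1)
  · exact lt_irrefl _ ((hux k u₂ hT2 h.symm).trans hk2)

/-- Zero regret from `z` to another trunk. -/
def TBev (w : V → V → ℝ) (m : ℝ) (u z : V) : Prop :=
  Trunk w m z ∧ Trunk w m u ∧ ¬ Same w m u z ∧
    ∀ n : ℕ, ∃ x, Trunk w m x ∧ Same w m x u ∧ Reg w m x z ≤ 1 / ((n : ℝ) + 1)

theorem all_same (hw : Adm w) (hi : InjT w m) (hl : LeftUnb w m)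
    (hA : ∀ n v, Trunk w m v → Aev w m n v → Aev w m n (phi w m v))
    (hTB : ∀ u z, ¬ TBev w m u z) (hu : Trunk w m u) (hv : Trunk w m v) : Same w m u v := by
  by_contra hns
  have hA' : ∀ n, ¬ Aev w m n v := by
    intro n hn
    obtain ⟨k, hk⟩ := Aev.fail hw hi hl hv n
    apply hk
    clear hk
    induction k with
    | zero => exact hn
    | succ k ih => rw [orb_succ]; exact hA n _ (hv.orb hw k) ih
  classical
  have hex : ∃ d, ∃ u', Trunk w m u' ∧ ¬ Same w m u' v ∧ Near w m d u' v := by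
    obtain ⟨p, -⟩ := conn_univ u v
    exact ⟨p.length, u, hu, hns, u, v, hu, hv, Same.refl _ _ _, Same.refl _ _ _, p, rfl⟩
  obtain ⟨u', hu', hns', hnear⟩ := Nat.find_spec hex
  have hN : Nst w m u' v := ⟨hu', hns', _, hnear, fun u'' d' h1 h2 h3 =>
    Nat.find_min' hex ⟨u'', h1, h2, h3⟩⟩
  refine hTB u' v ⟨hv, hu', hns', fun n => ?_⟩
  by_contra hcon
  push Not at hcon
  exact hA' n ⟨u', hN, hcon⟩

/-- At most one value of the weight of the edge `{z,a}` allows a tie. -/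
theorem tb_subsingleton {w₀ w₁ : V → V → ℝ} (h0 : Good w₀ m) (h1 : Good w₁ m)
    (hi1 : InjT w₁ m) (hlt : w₀ z a < w₁ z a)
    (heq : ∀ x y, s(x, y) ≠ s(z, a) → w₀ x y = w₁ x y)
    (hT0 : TBev w₀ m u z) (hT1 : TBev w₁ m u z) (hp0 : phi w₀ m z = a)
    (hp1 : phi w₁ m z = a) : False := by
  have hle : ∀ x y, w₀ x y ≤ w₁ x y := by
    intro x y
    by_cases hxy : s(x, y) = s(z, a)
    · rw [Sym2.eq_iff] at hxy
      rcases hxy with ⟨rfl, rfl⟩ | ⟨rfl, rfl⟩
      · exact hlt.le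
      · rw [h0.adm.symm, h1.adm.symm x y]; exact hlt.le
    · exact (heq x y hxy).le
  obtain ⟨γ, hγ0, hγ⟩ := exists_bi h0.adm hT0.2.1
  have hγz : ∀ n, γ n ≠ z := by
    intro n hn
    apply hT0.2.2.1
    rcases le_total 0 n with h | h
    · have := bi_orb hγ 0 n.toNat
      rw [zero_add, Int.toNat_of_nonneg h, hn, hγ0] at this
      rw [← this]
      exact (same_orb w₀ m u n.toNat).symm
    · have := bi_orb hγ n (-n).toNat
      rw [Int.toNat_of_nonneg (by omega), add_neg_cancel, hn, hγ0] at this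
      rw [← this]
      exact same_orb w₀ m z _
  have heq' : ∀ n, w₀ (γ n) (γ (n + 1)) = w₁ (γ n) (γ (n + 1)) := by
    intro n
    apply heq
    intro h
    rw [Sym2.eq_iff] at h
    rcases h with ⟨h, -⟩ | ⟨-, h⟩
    · exact hγz _ h
    · exact hγz _ h
  have hr0 : ∀ n : ℤ, IsRay w₀ (fun i : ℕ => γ (n + i)) := by
    intro n
    have := (hγ n).1.toOrb.1
    have e : orb w₀ m (γ n) = fun i : ℕ => γ (n + i) := funext fun i => bi_orb hγ n i
    rwa [e] at this
  have hs : ∀ n : ℤ, Slope m (fun i : ℕ => γ (n + i)) := by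
    intro n
    have := (hγ n).1.toOrb.2
    have e : orb w₀ m (γ n) = fun i : ℕ => γ (n + i) := funext fun i => bi_orb hγ n i
    rwa [e] at this
  have hr1 : ∀ n : ℤ, IsRay w₁ (fun i : ℕ => γ (n + i)) := by
    intro n
    refine ⟨(hr0 n).1, fun k => le_antisymm ?_ ?_⟩
    · have h2 := (hr0 n).2 k
      have h3 := T_mono_weight h0.adm (fun x y _ => hle x y) (γ (n + (0 : ℕ))) (γ (n + k))
      refine le_trans (le_of_eq ?_) (h2.trans_le h3)
      refine Finset.sum_congr rfl fun i _ => ?_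
      have := (heq' (n + i)).symm
      push_cast
      rw [← add_assoc]
      exact this
    · have := T_le_sum h1.adm (hr0 n).1 (Nat.zero_le k)
      rwa [Nat.Ico_zero_eq_range] at this
  have hγ1 : ∀ n, Trunk w₁ m (γ n) ∧ phi w₁ m (γ n) = γ (n + 1) := by
    intro n
    refine ⟨trunk_of_bi h1 hr1 hs n, ?_⟩
    have := orb_ray h1 (hr1 n) (hs n) 1
    simpa [orb_succ, orb_zero] using this
  obtain ⟨k, hk⟩ := exists_nat_one_div_lt (sub_pos.2 hlt)
  obtain ⟨x, hx, hxu, hreg⟩ := hT1.2.2.2 k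
  obtain ⟨n, rfl⟩ := bi_cover h1.adm hi1 hγ1 hx (by rw [hγ0]; exact hxu)
  have := tiebreak h0.adm h1.adm hle h0.small h1.small hT0.1.toOrb hp0 hT1.1.toOrb hp1
    (hr0 n) (hr1 n) (hs n) (fun i => by
      have := heq' (n + i)
      push_cast
      rw [← add_assoc]
      exact this)
  simp only [Nat.cast_zero, add_zero] at this
  linarith

end Vale.Agent.P158
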