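import Vale.Agent.P158.Density
import Mathlib.Analysis.Complex.Circle
import Mathlib.Probability.Independence.InfinitePi

/-! From trunks to bigeodesics with a prescribed direction. -/

namespace Vale.Agent.P158

open Filter MeasureTheory
open scoped ENNReal Topology

variable {G : Measure ℝ} [IsProbabilityMeasure G] {m : ℝ}

theorem ww_wt (t : Env) {x y : V} (p : latt.Walk x y) : ww (wt t) p = walkWeight t p := by
  unfold ww walkWeight
  congr 1
  refine List.map_congr_left fun d _ => ?_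
  unfold wt
  rw [dif_pos d.adj]
  rfl

theorem T_wt (t : Env) (x y : V) : T (wt t) x y = passageTime t x y := by
  unfold T PT passageTime
  refine (Equiv.subtypeUnivEquiv (p := fun p : latt.Walk x y => ∀ z ∈ p.support,
    z ∈ (Set.univ : Set V)) (fun _ _ _ => Set.mem_univ _)).iInf_congr fun p => ?_
  exact (ww_wt t p.1).symm

/-- Biinfinite geodesics for weight functions. -/
def IsBi (w : V → V → ℝ) (v : ℤ → V) : Prop := ∀ n : ℤ, IsRay w (fun i : ℕ => v (n + i))

theorem IsBigeodesic.isBi {t : Env} (hw : Adm (wt t)) {v : ℤ → V} (h : IsBigeodesic t v) :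
    IsBi (wt t) v := by
  intro n
  refine ⟨fun i => ?_, fun k => ?_⟩
  · have := h.adj (n + i)
    push_cast
    rwa [← add_assoc]
  · rcases Nat.eq_zero_or_pos k with rfl | hk
    · rw [T_self hw]
      simp
    · rw [T_wt]
      have h1 := h.geodesic n (n + k) (by omega)
      have h2 : ∑ i ∈ Finset.range k, wt t (v (n + (i : ℕ))) (v (n + ((i + 1 : ℕ) : ℤ))) =
          ∑ j ∈ Finset.Ico n (n + k), t ⟨s(v j, v (j + 1)), h.adj j⟩ := by
        refine Finset.sum_bij (fun (i : ℕ) _ => n + (i : ℤ)) (fun i hi => ?_)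
          (fun i _ l _ h => by omega) (fun j hj => ?_) (fun i _ => ?_)
        · rw [Finset.mem_range] at hi
          rw [Finset.mem_Ico]
          omega
        · rw [Finset.mem_Ico] at hj
          refine ⟨(j - n).toNat, ?_, ?_⟩
          · rw [Finset.mem_range]; omega
          · omega
        · have e : n + ((i + 1 : ℕ) : ℤ) = n + (i : ℤ) + 1 := by push_cast; ring
          rw [e]
          unfold wt
          rw [dif_pos (h.adj _)]
      rw [h2, h1]
      simp

theorem IsBi.rev {w : V → V → ℝ} (hw : Adm w) {v : ℤ → V} (h : IsBi w v) :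
    IsBi w (fun n => v (-n)) := by
  intro n
  refine ⟨fun i => ?_, fun k => ?_⟩
  · have h1 : latt.Adj (v (-(n + (i : ℤ)) - 1 + ((0 : ℕ) : ℤ)))
        (v (-(n + (i : ℤ)) - 1 + ((0 + 1 : ℕ) : ℤ))) := (h (-(n + i) - 1)).1 0
    have e1 : -(n + (i : ℤ)) - 1 + ((0 : ℕ) : ℤ) = -(n + ((i + 1 : ℕ) : ℤ)) := by
      push_cast; ring
    have e2 : -(n + (i : ℤ)) - 1 + ((0 + 1 : ℕ) : ℤ) = -(n + (i : ℤ)) := by
      push_cast; ring
    rw [e1, e2] at h1
    exact h1.symm
  · have h1 : ∑ i ∈ Finset.range k, w (v (-(n + (k : ℤ)) + ((i : ℕ) : ℤ)))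
        (v (-(n + (k : ℤ)) + ((i + 1 : ℕ) : ℤ))) = T w (v (-(n + (k : ℤ)) + ((0 : ℕ) : ℤ)))
        (v (-(n + (k : ℤ)) + (k : ℤ))) := (h (-(n + k))).2 k
    have e0 : -(n + (k : ℤ)) + ((0 : ℕ) : ℤ) = -(n + (k : ℤ)) := by push_cast; ring
    have e1 : -(n + (k : ℤ)) + (k : ℤ) = -(n + ((0 : ℕ) : ℤ)) := by push_cast; ring
    rw [e0, e1, T_comm hw] at h1
    refine Eq.trans ?_ h1
    rw [← Finset.sum_range_reflect]
    refine Finset.sum_congr rfl fun i hi => ?_
    rw [Finset.mem_range] at hi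
    rw [hw.symm]
    have f1 : -(n + ((k - 1 - i + 1 : ℕ) : ℤ)) = -(n + (k : ℤ)) + (i : ℤ) := by omega
    have f2 : -(n + ((k - 1 - i : ℕ) : ℤ)) = -(n + (k : ℤ)) + ((i + 1 : ℕ) : ℤ) := by omega
    change w (v (-(n + ((k - 1 - i + 1 : ℕ) : ℤ)))) (v (-(n + ((k - 1 - i : ℕ) : ℤ)))) = _
    rw [f1, f2]

/-- Weight functions seen through a graph automorphism. -/
theorem ww_map_iso (φ : latt ≃g latt) (w : V → V → ℝ) {x y : V} (p : latt.Walk x y) :
    ww w (p.map φ.toHom) = ww (fun a b => w (φ a) (φ b)) p := by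
  induction p with
  | nil => rfl
  | cons h p ih =>
    rw [SimpleGraph.Walk.map_cons, ww_cons, ww_cons, ih]
    rfl

theorem T_iso_le (φ : latt ≃g latt) {w : V → V → ℝ} (hw : Adm w) (x y : V) :
    T w (φ x) (φ y) ≤ T (fun a b => w (φ a) (φ b)) x y := by
  refine le_PT (conn_univ x y) fun p _ => ?_
  rw [← ww_map_iso]
  exact T_le hw _

theorem Adm.iso (φ : latt ≃g latt) {w : V → V → ℝ} (hw : Adm w) :
    Adm (fun a b => w (φ a) (φ b)) :=
  ⟨fun _ _ => hw.symm _ _, fun _ _ h => hw.pos _ _ (φ.map_adj_iff.2 h)⟩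

theorem T_iso (φ : latt ≃g latt) {w : V → V → ℝ} (hw : Adm w) (x y : V) :
    T (fun a b => w (φ a) (φ b)) x y = T w (φ x) (φ y) := by
  refine le_antisymm ?_ (T_iso_le φ hw x y)
  have := T_iso_le φ.symm (hw.iso φ) (φ x) (φ y)
  simpa using this

/-- Reflection in the vertical axis. -/
def refl1 : latt ≃g latt where
  toFun x := (-x.1, x.2)
  invFun x := (-x.1, x.2)
  left_inv x := by simp
  right_inv x := by simp
  map_rel_iff' := by
    intro x y
    change |(-x.1) - (-y.1)| + |x.2 - y.2| = 1 ↔ |x.1 - y.1| + |x.2 - y.2| = 1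
    have : (-x.1) - (-y.1) = -(x.1 - y.1) := by ring
    rw [this, abs_neg]

theorem refl1_apply (x : V) : refl1 x = (-x.1, x.2) := rfl

theorem IsBi.refl {w : V → V → ℝ} (hw : Adm w) {v : ℤ → V} (h : IsBi w v) :
    IsBi (fun a b => w (refl1 a) (refl1 b)) (fun n => refl1 (v n)) := by
  have hrr : ∀ x, refl1 (refl1 x) = x := fun x => by simp [refl1_apply]
  intro n
  refine ⟨fun i => refl1.map_adj_iff.2 ((h n).1 i), fun k => ?_⟩
  rw [T_iso refl1 hw]
  simp only [hrr]
  exact (h n).2 k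

theorem tendsto_norm_of_injective {r : ℕ → V} (hr : Function.Injective r) :
    Tendsto (fun n => ‖toC (r n)‖) atTop atTop := by
  have h1 : Tendsto r atTop cofinite := by
    rw [← Nat.cofinite_eq_atTop]; exact hr.tendsto_cofinite
  have h2 : Tendsto (fun x : V => ‖toC x‖) cofinite atTop := by
    rw [tendsto_atTop]
    intro R
    rw [Filter.eventually_cofinite]
    obtain ⟨n, hn⟩ := exists_nat_ge R
    refine Set.Finite.subset (Box n).finite_toSet fun x hx => ?_
    have hx' : ‖toC x‖ < R := not_le.1 hx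
    have a1 := Complex.abs_re_le_norm (toC x)
    have a2 := Complex.abs_im_le_norm (toC x)
    have b1 : |(x.1 : ℝ)| ≤ n := (a1.trans hx'.le).trans hn
    have b2 : |(x.2 : ℝ)| ≤ n := (a2.trans hx'.le).trans hn
    have c1 : |x.1| ≤ (n : ℤ) := by exact_mod_cast b1
    have c2 : |x.2| ≤ (n : ℤ) := by exact_mod_cast b2
    rw [Finset.mem_coe, mem_Box]
    exact ⟨abs_le.1 c1, abs_le.1 c2⟩
  exact h2.comp h1

theorem slope_of_direction {r : ℕ → V} (hr : Function.Injective r) {θ : ℂ}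
    (hθ : 0 < θ.re) (h : HasDirection r θ) : Slope (θ.im / θ.re) r := by
  have hN := tendsto_norm_of_injective hr
  have hre : Tendsto (fun n => ((r n).1 : ℝ) / ‖toC (r n)‖) atTop (𝓝 θ.re) := by
    have := (Complex.continuous_re.tendsto θ).comp h
    refine this.congr fun n => ?_
    simp only [Function.comp_apply, Complex.div_ofReal_re]
    rfl
  have him : Tendsto (fun n => ((r n).2 : ℝ) / ‖toC (r n)‖) atTop (𝓝 θ.im) := by
    have := (Complex.continuous_im.tendsto θ).comp h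
    refine this.congr fun n => ?_
    simp only [Function.comp_apply, Complex.div_ofReal_im]
    rfl
  intro q
  have hdiff : Tendsto (fun n => (q : ℝ) * |((r n).2 : ℝ) / ‖toC (r n)‖ -
      θ.im / θ.re * (((r n).1 : ℝ) / ‖toC (r n)‖)|) atTop (𝓝 0) := by
    have h1 := (him.sub (hre.const_mul (θ.im / θ.re))).abs.const_mul (q : ℝ)
    have e : (q : ℝ) * |θ.im - θ.im / θ.re * θ.re| = 0 := by
      rw [div_mul_cancel₀ _ hθ.ne']; simp
    rwa [e] at h1
  have hhalf : 0 < θ.re / 2 := half_pos hθ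
  filter_upwards [hdiff.eventually (gt_mem_nhds hhalf),
    hre.eventually (lt_mem_nhds (half_lt_self hθ)), hN.eventually_gt_atTop 0,
    hN.eventually_ge_atTop ((q : ℝ) / (θ.re / 2))] with n h1 h2 h3 h4
  have h5 : ((r n).1 : ℝ) = (((r n).1 : ℝ) / ‖toC (r n)‖) * ‖toC (r n)‖ := by
    field_simp
  have h6 : θ.re / 2 * ‖toC (r n)‖ ≤ ((r n).1 : ℝ) := by
    rw [h5]; exact mul_le_mul_of_nonneg_right h2.le h3.le
  constructor
  · refine le_trans ?_ h6
    have h7 : |((r n).2 : ℝ) - θ.im / θ.re * ((r n).1 : ℝ)| =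
        |((r n).2 : ℝ) / ‖toC (r n)‖ - θ.im / θ.re * (((r n).1 : ℝ) / ‖toC (r n)‖)| *
          ‖toC (r n)‖ := by
      rw [← abs_of_pos h3, ← abs_mul, abs_of_pos h3]
      congr 1
      field_simp
    rw [h7, ← mul_assoc]
    exact mul_le_mul_of_nonneg_right h1.le h3.le
  · refine le_trans ?_ h6
    rw [div_le_iff₀ hhalf] at h4
    linarith

theorem ae_no_bi [NullSingletonClass G] (hG : G (Set.Iio 0) = 0)
    (hmean : ∫⁻ s, ENNReal.ofReal s ∂G ≠ ∞) {θ : ℂ} (hθ : 0 < θ.re)
    (hm : θ.im / θ.re ∉ badSlopes G) : ∀ᵐ t ∂PG G, ∀ v : ℤ → V, IsBi (wt t) v →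
      ¬ HasDirection (fun n : ℕ => v n) θ := by
  have hgood := ae_good hG hm
  filter_upwards [hgood, ae_no_trunk hmean hgood] with t h1 h2 v hv hd
  have hinj : Function.Injective (fun n : ℕ => v n) := by
    have := (hv 0).injective h1.adm
    simpa using this
  have hs0 := slope_of_direction hinj hθ hd
  have hs : ∀ n : ℤ, Slope (θ.im / θ.re) (fun i : ℕ => v (n + i)) := by
    intro n q
    have ht : Tendsto (fun i : ℕ => (n + (i : ℤ)).toNat) atTop atTop := by
      rw [tendsto_atTop]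
      intro b
      filter_upwards [eventually_ge_atTop (b + (-n).toNat)] with i hi
      omega
    filter_upwards [ht.eventually (hs0 q), eventually_ge_atTop (-n).toNat] with i h3 h4
    have e : (((n + (i : ℤ)).toNat : ℕ) : ℤ) = n + i := by omega
    rw [e] at h3
    exact h3
  exact h2 _ (trunk_of_bi h1 hv hs 0)

theorem HasDirection.refl {r : ℕ → V} {θ : ℂ} (h : HasDirection r θ) :
    HasDirection (fun n => refl1 (r n)) ⟨-θ.re, θ.im⟩ := by
  have hc : Continuous (fun z : ℂ => (⟨-z.re, z.im⟩ : ℂ)) := by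
    have : (fun z : ℂ => (⟨-z.re, z.im⟩ : ℂ)) = fun z => -(starRingEnd ℂ z) := by
      funext z
      apply Complex.ext <;> simp
    rw [this]
    exact Complex.continuous_conj.neg
  have h1 := (hc.tendsto θ).comp h
  refine h1.congr fun n => ?_
  have e1 : toC (refl1 (r n)) = ⟨-(toC (r n)).re, (toC (r n)).im⟩ := by
    apply Complex.ext
    · simp [toC, refl1_apply]
    · simp [toC, refl1_apply]
  have e2 : ‖toC (refl1 (r n))‖ = ‖toC (r n)‖ := by
    have : toC (refl1 (r n)) = -(starRingEnd ℂ (toC (r n))) := by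
      rw [e1]; apply Complex.ext <;> simp
    rw [this, norm_neg, Complex.norm_conj]
  rw [e2, e1]
  simp only [Function.comp_apply]
  apply Complex.ext
  · simp only [Complex.div_ofReal_re]; ring
  · simp only [Complex.div_ofReal_im]

/-- Exceptional directions. -/
def excDir (G : Measure ℝ) [IsProbabilityMeasure G] : Set Circle :=
  {θ | (θ : ℂ).re = 0} ∪ {θ | 0 < (θ : ℂ).re ∧ (θ : ℂ).im / (θ : ℂ).re ∈ badSlopes G} ∪
    {θ | (θ : ℂ).re < 0 ∧ (θ : ℂ).im / (-(θ : ℂ).re) ∈ badSlopes G}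

theorem circle_sq (θ : Circle) : (θ : ℂ).re ^ 2 + (θ : ℂ).im ^ 2 = 1 := by
  have h := Circle.normSq_coe θ
  rw [Complex.normSq_apply] at h
  nlinarith

theorem circle_ext {θ θ' : Circle} (h1 : (θ : ℂ).re = (θ' : ℂ).re)
    (h2 : (θ : ℂ).im = (θ' : ℂ).im) : θ = θ' := Circle.ext (Complex.ext h1 h2)

theorem countable_excDir [NullSingletonClass G] (hG : G (Set.Iio 0) = 0) :
    (excDir G).Countable := by
  have hb := countable_badSlopes hG
  unfold excDir
  refine Set.Countable.union (Set.Countable.union ?_ ?_) ?_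
  · have hmaps : Set.MapsTo (fun θ : Circle => (θ : ℂ).im) {θ : Circle | (θ : ℂ).re = 0}
        {-1, 1} := by
      intro θ hθ
      have h0 : (θ : ℂ).re = 0 := hθ
      have h1 := circle_sq θ
      rw [h0] at h1
      have h2 : ((θ : ℂ).im - 1) * ((θ : ℂ).im + 1) = 0 := by nlinarith
      rcases mul_eq_zero.1 h2 with h | h
      · right; simp only [Set.mem_singleton_iff]; linarith
      · left; simp only; linarith
    refine hmaps.countable_of_injOn ?_ (by simp)
    intro θ hθ θ' hθ' h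
    have h0 : (θ : ℂ).re = 0 := hθ
    have h0' : (θ' : ℂ).re = 0 := hθ'
    exact circle_ext (h0.trans h0'.symm) h
  · have hmaps : Set.MapsTo (fun θ : Circle => (θ : ℂ).im / (θ : ℂ).re)
        {θ : Circle | 0 < (θ : ℂ).re ∧ (θ : ℂ).im / (θ : ℂ).re ∈ badSlopes G}
        (badSlopes G) := fun θ hθ => hθ.2
    refine hmaps.countable_of_injOn ?_ hb
    rintro θ ⟨h0, -⟩ θ' ⟨h0', -⟩ h
    have h1 := circle_sq θ
    have h2 := circle_sq θ'
    simp only at h
    set a := (θ : ℂ).re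
    set b := (θ : ℂ).im
    set a' := (θ' : ℂ).re
    set b' := (θ' : ℂ).im
    rw [div_eq_div_iff h0.ne' h0'.ne'] at h
    have h3 : a ^ 2 = a' ^ 2 := by
      have : (b * a') ^ 2 = (b' * a) ^ 2 := by rw [h]
      nlinarith
    have h4 : a = a' := by nlinarith [sq_nonneg (a - a'), sq_nonneg (a + a')]
    refine circle_ext h4 ?_
    rw [← h4] at h
    exact mul_right_cancel₀ h0.ne' h
  · have hmaps : Set.MapsTo (fun θ : Circle => (θ : ℂ).im / (-(θ : ℂ).re))
        {θ : Circle | (θ : ℂ).re < 0 ∧ (θ : ℂ).im / (-(θ : ℂ).re) ∈ badSlopes G}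
        (badSlopes G) := fun θ hθ => hθ.2
    refine hmaps.countable_of_injOn ?_ hb
    rintro θ ⟨h0, -⟩ θ' ⟨h0', -⟩ h
    have h1 := circle_sq θ
    have h2 := circle_sq θ'
    simp only at h
    set a := (θ : ℂ).re
    set b := (θ : ℂ).im
    set a' := (θ' : ℂ).re
    set b' := (θ' : ℂ).im
    rw [div_eq_div_iff (neg_ne_zero.2 h0.ne) (neg_ne_zero.2 h0'.ne)] at h
    have h3 : a ^ 2 = a' ^ 2 := by
      have : (b * a') ^ 2 = (b' * a) ^ 2 := by
        have : b * a' = b' * a := by linarith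
        rw [this]
      nlinarith
    have h4 : a = a' := by nlinarith [sq_nonneg (a - a'), sq_nonneg (a + a')]
    refine circle_ext h4 ?_
    rw [← h4] at h
    exact mul_right_cancel₀ (neg_ne_zero.2 h0.ne) h

theorem ae_no_end [NullSingletonClass G] (hG : G (Set.Iio 0) = 0)
    (hmean : ∫⁻ s, ENNReal.ofReal s ∂G ≠ ∞) {θ : Circle} (hθ : θ ∉ excDir G) :
    ∀ᵐ t ∂PG G, ∀ v : ℤ → V, IsBi (wt t) v → ¬ HasDirection (fun n : ℕ => v n) θ := by
  have h0 : (θ : ℂ).re ≠ 0 := fun h => hθ (Or.inl (Or.inl h))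
  rcases lt_or_gt_of_ne h0 with h | h
  · have hm : (⟨-(θ : ℂ).re, (θ : ℂ).im⟩ : ℂ).im / (⟨-(θ : ℂ).re, (θ : ℂ).im⟩ : ℂ).re ∉
        badSlopes G := fun h' => hθ (Or.inr ⟨h, h'⟩)
    have h1 := (mp_iso (G := G) refl1).quasiMeasurePreserving.ae
      (ae_no_bi hG hmean (θ := ⟨-(θ : ℂ).re, (θ : ℂ).im⟩) (by simpa using h) hm)
    filter_upwards [h1, ae_adm hG] with t h2 h3 v hv hd
    have hw : wt (isoE refl1 t) = fun a b => wt t (refl1 a) (refl1 b) := by
      funext a b; exact wt_isoE refl1 t a b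
    refine h2 (fun n => refl1 (v n)) ?_ hd.refl
    rw [hw]
    exact hv.refl h3
  · exact ae_no_bi hG hmean h fun h' => hθ (Or.inl (Or.inr ⟨h, h'⟩))

theorem main_theorem (G : Measure ℝ) [IsProbabilityMeasure G] (hG : G (Set.Iio 0) = 0)
    (hatom : ∀ x, G {x} = 0) (hmean : Integrable (fun s : ℝ => s) G) :
    ∃ D : Set Circle, D.Countable ∧ ∀ θ : Circle, θ ∉ D →
      ∀ (Ω : Type*) [MeasurableSpace Ω] (P : Measure Ω) [IsProbabilityMeasure P]
        (t : latt.edgeSet → Ω → ℝ), (∀ e, Measurable (t e)) → (∀ e, P.map (t e) = G) →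
        ProbabilityTheory.iIndepFun t P →
        ∀ᵐ ω ∂P, ∀ v : ℤ → V, IsBigeodesic (fun e => t e ω) v →
          ¬ HasDirection (fun n : ℕ => v n) θ ∧ ¬ HasDirection (fun n : ℕ => v (-n)) θ := by
  have : NullSingletonClass G := ⟨hatom⟩
  refine ⟨excDir G, countable_excDir hG, fun θ hθ Ω _ P _ t ht hlaw hind => ?_⟩
  have hmean' : ∫⁻ s, ENNReal.ofReal s ∂G ≠ ∞ := by
    refine ne_of_lt (lt_of_le_of_lt (lintegral_mono fun s => ?_) hmean.2)
    rw [← ofReal_norm]
    exact ENNReal.ofReal_le_ofReal (le_abs_self s)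
  have hmap : P.map (fun ω e => t e ω) = PG G := by
    have h1 := hind.map_fun_eq_infinitePi_map ht
    rw [h1]
    unfold PG
    simp only [hlaw]
  have h2 : ∀ᵐ τ ∂(P.map (fun ω e => t e ω)), (Adm (wt τ) ∧ ∀ v : ℤ → V, IsBi (wt τ) v →
      ¬ HasDirection (fun n : ℕ => v n) θ) := by
    rw [hmap]
    filter_upwards [ae_adm hG, ae_no_end hG hmean' hθ] with τ h3 h4
    exact ⟨h3, h4⟩
  have h3 := ae_of_ae_map (measurable_pi_lambda _ ht).aemeasurable h2
  filter_upwards [h3] with ω ⟨h4, h5⟩ v hv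
  have hbi := hv.isBi h4
  refine ⟨h5 v hbi, ?_⟩
  have := h5 _ (hbi.rev h4)
  simpa using this

end Vale.Agent.P158
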