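import Vale.Agent.P158.Planar
import Mathlib.Algebra.Order.Floor.Ring
import Mathlib.Order.Filter.AtTopBot.Archimedean
import Mathlib.Order.Filter.AtTopBot.Field
import Mathlib.Algebra.Order.BigOperators.Group.Finset

/-! Oscillation counting. -/

namespace Vale.Agent.P158

open Filter

variable {w : V → V → ℝ} {x y z : V}

/-- Negation of small oscillation at level `1/(n+1)`. -/
def Bad (w : V → V → ℝ) (m : ℝ) (x y : V) (n : ℕ) : Prop :=
  ∀ k : ℕ, ∀ᶠ N : ℤ in atTop, ∃ j j' : ℤ, J m x k N j ∧ J m x k N j' ∧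
    1 / ((n : ℝ) + 1) < g w N x y j - g w N x y j'

theorem small_iff (w : V → V → ℝ) (m : ℝ) (x y : V) :
    Small w m x y ↔ ∀ n, ¬ Bad w m x y n := by
  unfold Small Bad
  refine forall_congr' fun n => ?_
  rw [not_forall]
  refine exists_congr fun k => ?_
  rw [not_eventually]
  refine Iff.of_eq (congrArg (fun P => ∃ᶠ N : ℤ in atTop, P N) (funext fun N => ?_))
  refine propext ⟨fun h => ?_, fun h j j' h1 h2 => ?_⟩
  · rintro ⟨j, j', h1, h2, h3⟩
    exact absurd (h j j' h1 h2) (not_le.2 h3)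
  · by_contra h3
    exact h ⟨j, j', h1, h2, not_le.1 h3⟩

theorem cross_le (hw : Adm w) {S : Set V} {v u : V} {ε : ℝ}
    (p : latt.Walk x v) (q : latt.Walk y u) (hp : ∀ z ∈ p.support, z ∈ S)
    (hq : ∀ z ∈ q.support, z ∈ S) (hp' : ww w p < PT w S x v + ε)
    (hq' : ww w q < PT w S y u + ε) (hz : z ∈ p.support) (hz' : z ∈ q.support) :
    PT w S x u + PT w S y v ≤ PT w S x v + PT w S y u + 2 * ε := by
  have h1 := PT_le (S := S) hw ((p.takeUntil z hz).append (q.dropUntil z hz')) fun a ha => by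
    rw [SimpleGraph.Walk.mem_support_append_iff] at ha
    rcases ha with ha | ha
    · exact hp a (p.support_takeUntil_subset_support hz ha)
    · exact hq a (q.support_dropUntil_subset_support hz' ha)
  have h2 := PT_le (S := S) hw ((q.takeUntil z hz').append (p.dropUntil z hz)) fun a ha => by
    rw [SimpleGraph.Walk.mem_support_append_iff] at ha
    rcases ha with ha | ha
    · exact hq a (q.support_takeUntil_subset_support hz' ha)
    · exact hp a (p.support_dropUntil_subset_support hz ha)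
  have h3 := congrArg (ww w) (p.take_spec hz)
  have h4 := congrArg (ww w) (q.take_spec hz')
  rw [ww_append] at h1 h2 h3 h4
  linarith

/-- No alternation of half-plane passage time differences along a column. -/
theorem nonalt (hw : Adm w) {N : ℤ} (hx : x ∈ HN N) (hy : y ∈ HN N) {j₁ j₂ j₃ j₄ : ℤ}
    (h12 : j₁ < j₂) (h23 : j₂ < j₃) (h34 : j₃ < j₄) :
    min (g w N x y j₂) (g w N x y j₄) ≤ max (g w N x y j₁) (g w N x y j₃) := by
  by_contra hcon
  rw [not_le] at hcon
  set ε := (min (g w N x y j₂) (g w N x y j₄) - max (g w N x y j₁) (g w N x y j₃)) / 2 with hε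
  have hε0 : 0 < ε := half_pos (sub_pos.2 hcon)
  have a1 := le_max_left (g w N x y j₁) (g w N x y j₃)
  have a2 := le_max_right (g w N x y j₁) (g w N x y j₃)
  have a3 := min_le_left (g w N x y j₂) (g w N x y j₄)
  have a4 := min_le_right (g w N x y j₂) (g w N x y j₄)
  have hε2 : 0 < ε / 2 := half_pos hε0
  obtain ⟨p₁, hp₁, hp₁'⟩ := exists_walk hw (conn_HN hx (mem_HN_col N j₁)) hε2
  obtain ⟨p₃, hp₃, hp₃'⟩ := exists_walk hw (conn_HN hx (mem_HN_col N j₃)) hε2
  obtain ⟨q₂, hq₂, hq₂'⟩ := exists_walk hw (conn_HN hy (mem_HN_col N j₂)) hε2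
  obtain ⟨q₄, hq₄, hq₄'⟩ := exists_walk hw (conn_HN hy (mem_HN_col N j₄)) hε2
  obtain ⟨z, hz, hz'⟩ := crossing h12 h23 h34 (p₁.reverse.append p₃) (q₂.reverse.append q₄)
    (fun a ha => by
      rw [SimpleGraph.Walk.mem_support_append_iff] at ha
      rcases ha with ha | ha
      · exact hp₁ a (by simpa using ha)
      · exact hp₃ a ha)
    (fun a ha => by
      rw [SimpleGraph.Walk.mem_support_append_iff] at ha
      rcases ha with ha | ha
      · exact hq₂ a (by simpa using ha)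
      · exact hq₄ a ha)
  rw [SimpleGraph.Walk.mem_support_append_iff] at hz hz'
  unfold g at a1 a2 a3 a4 hε
  rcases hz with hz | hz <;> rcases hz' with hz' | hz'
  · have := cross_le hw p₁ q₂ hp₁ hq₂ hp₁' hq₂' (by simpa using hz) (by simpa using hz')
    linarith
  · have := cross_le hw p₁ q₄ hp₁ hq₄ hp₁' hq₄' (by simpa using hz) hz'
    linarith
  · have := cross_le hw p₃ q₂ hp₃ hq₂ hp₃' hq₂' hz (by simpa using hz')
    linarith
  · have := cross_le hw p₃ q₄ hp₃ hq₄ hp₃' hq₄' hz hz'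
    linarith

theorem J_lt {m m' : ℝ} {k : ℕ} {N j j' : ℤ} (hk : 2 < (k : ℝ) * (m' - m)) (hN : x.1 < N)
    (hj : J m x k N j) (hj' : J m' x k N j') : j < j' := by
  unfold J at hj hj'
  have hk0 : (0 : ℝ) ≤ k := Nat.cast_nonneg k
  have hN' : (0 : ℝ) < ((N - x.1 : ℤ) : ℝ) := by
    have : 0 < N - x.1 := by omega
    exact_mod_cast this
  have h1 := mul_le_mul_of_nonneg_left
    (le_abs_self (((j - x.2 : ℤ) : ℝ) - m * ((N - x.1 : ℤ) : ℝ))) hk0
  have h2 := mul_le_mul_of_nonneg_left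
    (neg_abs_le (((j' - x.2 : ℤ) : ℝ) - m' * ((N - x.1 : ℤ) : ℝ))) hk0
  have h3 := mul_lt_mul_of_pos_right hk hN'
  have h4 : (k : ℝ) * (((j' - x.2 : ℤ) : ℝ) - ((j - x.2 : ℤ) : ℝ)) > 0 := by
    nlinarith
  by_contra hcon
  have h5 : ((j' - x.2 : ℤ) : ℝ) - ((j - x.2 : ℤ) : ℝ) ≤ 0 := by
    have : (j' - x.2) - (j - x.2) ≤ 0 := by omega
    exact_mod_cast this
  have h6 := mul_nonpos_of_nonneg_of_nonpos hk0 h5
  linarith

/-- Window data of one slope at level `s`. -/
def Cross (w : V → V → ℝ) (x y : V) (N : ℤ) (k : ℕ) (s m : ℝ) : Prop :=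
  ∃ j j' : ℤ, J m x k N j ∧ J m x k N j' ∧ g w N x y j' < s ∧ s < g w N x y j

theorem three_windows (hw : Adm w) {N : ℤ} (hx : x ∈ HN N) (hy : y ∈ HN N) (hN : x.1 < N)
    {k : ℕ} {s m₁ m₂ m₃ : ℝ} (h12 : 2 < (k : ℝ) * (m₂ - m₁)) (h23 : 2 < (k : ℝ) * (m₃ - m₂))
    (h1 : Cross w x y N k s m₁) (h2 : Cross w x y N k s m₂) (h3 : Cross w x y N k s m₃) :
    False := by
  obtain ⟨a, b, ha, hb, hb', ha'⟩ := h1
  obtain ⟨c, d, hc, hd, hd', hc'⟩ := h2
  obtain ⟨e, f, he, hf, hf', he'⟩ := h3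
  have hne : a ≠ b := by
    rintro rfl
    exact lt_irrefl _ (hb'.trans ha')
  rcases lt_or_gt_of_ne hne with hab | hab
  · have := nonalt (w := w) hw hy hx hab (J_lt h12 hN hb hc) (J_lt h23 hN hc hf)
    rw [g_swap N x y, g_swap N x y, g_swap N x y, g_swap N x y] at this
    rcases min_le_iff.1 this with h | h <;> rcases le_max_iff.1 h with h | h <;> linarith
  · have := nonalt (w := w) hw hx hy hab (J_lt h12 hN ha hd) (J_lt h23 hN hd he)
    rcases min_le_iff.1 this with h | h <;> rcases le_max_iff.1 h with h | h <;> linarith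

theorem eventually_gap (F : Finset ℝ) :
    ∀ᶠ k : ℕ in atTop, ∀ m ∈ F, ∀ m' ∈ F, m < m' → 2 < (k : ℝ) * (m' - m) := by
  refine (Finset.eventually_all _).2 fun m _ => (Finset.eventually_all _).2 fun m' _ => ?_
  by_cases h : m < m'
  · have := (tendsto_natCast_atTop_atTop (R := ℝ)).atTop_mul_const (sub_pos.2 h)
    filter_upwards [this.eventually_gt_atTop 2] with k hk _
    exact hk
  · exact Eventually.of_forall fun _ h' => absurd h' h

/-- A bounded number of slopes are bad at a given level. -/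
theorem card_bad (hw : Adm w) (x y : V) (n : ℕ) {K : ℝ}
    (hK : PT w (HN (max x.1 y.1)) x y ≤ K) (F : Finset ℝ) (hF : ∀ m ∈ F, Bad w m x y n) :
    (F.card : ℝ) ≤ 4 * K * ((n : ℝ) + 1) + 2 := by
  obtain ⟨k, hk⟩ := (eventually_gap F).exists
  have hev : ∀ᶠ N : ℤ in atTop, ∀ m ∈ F, ∃ j j' : ℤ, J m x k N j ∧ J m x k N j' ∧
      1 / ((n : ℝ) + 1) < g w N x y j - g w N x y j' :=
    (Finset.eventually_all _).2 fun m hm => hF m hm k
  obtain ⟨N, hN, hN1, hN2⟩ := (hev.and ((eventually_gt_atTop x.1).and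
    (eventually_ge_atTop (max x.1 y.1)))).exists
  have hx : x ∈ HN N := le_trans (le_max_left _ _) hN2
  have hy : y ∈ HN N := le_trans (le_max_right _ _) hN2
  have hx0 : x ∈ HN (max x.1 y.1) := le_max_left x.1 y.1
  have hy0 : y ∈ HN (max x.1 y.1) := le_max_right x.1 y.1
  have hg : ∀ j, |g w N x y j| ≤ K := fun j =>
    (abs_g_le hw hx hy j).trans ((PT_mono hw (HN_subset hN2) (conn_HN hx0 hy0)).trans hK)
  set δ : ℝ := 1 / ((n : ℝ) + 1) with hδ
  have hδ0 : 0 < δ := by positivity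
  have hlev : ∀ m ∈ F, ∃ l : ℤ, l ∈ Finset.Icc (-⌊K / δ⌋) ⌊K / δ⌋ ∧
      Cross w x y N k (l * δ) m := by
    intro m hm
    obtain ⟨j, j', hj, hj', hlt⟩ := hN m hm
    refine ⟨⌊g w N x y j' / δ⌋ + 1, ?_, j, j', hj, hj', ?_, ?_⟩
    · have h1 : g w N x y j' < (⌊g w N x y j' / δ⌋ + 1 : ℤ) * δ := by
        have := Int.lt_floor_add_one (g w N x y j' / δ)
        rw [div_lt_iff₀ hδ0] at this
        push_cast; exact this
      have h2 : ((⌊g w N x y j' / δ⌋ + 1 : ℤ) : ℝ) * δ < g w N x y j := by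
        have := Int.floor_le (g w N x y j' / δ)
        rw [le_div_iff₀ hδ0] at this
        push_cast; linarith
      have b1 := abs_le.1 (hg j)
      have b2 := abs_le.1 (hg j')
      rw [Finset.mem_Icc]
      constructor
      · rw [neg_le]
        rw [Int.le_floor, le_div_iff₀ hδ0]
        push_cast at h1 h2 ⊢
        linarith [b2.1]
      · rw [Int.le_floor, le_div_iff₀ hδ0]
        linarith [b1.2]
    · have := Int.lt_floor_add_one (g w N x y j' / δ)
      rw [div_lt_iff₀ hδ0] at this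
      push_cast; exact this
    · have := Int.floor_le (g w N x y j' / δ)
      rw [le_div_iff₀ hδ0] at this
      push_cast; linarith
  classical
  choose! l hl1 hl2 using hlev
  have hcard := Finset.card_le_mul_card_image_of_maps_to (f := l) (s := F)
    (t := Finset.Icc (-⌊K / δ⌋) ⌊K / δ⌋) hl1 2 (fun b _ => by
      by_contra hcon
      rw [not_le] at hcon
      obtain ⟨m₁, h1, m₂, h2, m₃, h3, h12, h13, h23⟩ := Finset.two_lt_card.1 hcon
      rw [Finset.mem_filter] at h1 h2 h3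
      have c1 := hl2 m₁ h1.1
      have c2 := hl2 m₂ h2.1
      have c3 := hl2 m₃ h3.1
      rw [h1.2] at c1
      rw [h2.2] at c2
      rw [h3.2] at c3
      have key : ∀ {a b' c : ℝ}, a ∈ F → b' ∈ F → c ∈ F → a < b' → b' < c →
          Cross w x y N k (b * δ) a → Cross w x y N k (b * δ) b' →
          Cross w x y N k (b * δ) c → False := fun ha hb hc hab hbc x1 x2 x3 =>
        three_windows hw hx hy hN1 (hk _ ha _ hb hab) (hk _ hb _ hc hbc) x1 x2 x3
      rcases lt_or_gt_of_ne h12 with h12 | h12 <;> rcases lt_or_gt_of_ne h13 with h13 | h13 <;>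
        rcases lt_or_gt_of_ne h23 with h23 | h23
      · exact key h1.1 h2.1 h3.1 h12 h23 c1 c2 c3
      · exact key h1.1 h3.1 h2.1 h13 h23 c1 c3 c2
      · linarith
      · exact key h3.1 h1.1 h2.1 h13 h12 c3 c1 c2
      · exact key h2.1 h1.1 h3.1 h12 h13 c2 c1 c3
      · linarith
      · exact key h2.1 h3.1 h1.1 h23 h13 c2 c3 c1
      · exact key h3.1 h2.1 h1.1 h23 h12 c3 c2 c1)
  have hK0 : 0 ≤ K := (PT_nonneg hw).trans hK
  have hfl : 0 ≤ ⌊K / δ⌋ := Int.floor_nonneg.2 (div_nonneg hK0 hδ0.le)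
  rw [Int.card_Icc] at hcard
  have h1 : (F.card : ℤ) ≤ 2 * (2 * ⌊K / δ⌋ + 1) := by
    have : ((⌊K / δ⌋ + 1 - -⌊K / δ⌋).toNat : ℤ) = 2 * ⌊K / δ⌋ + 1 := by
      rw [Int.toNat_of_nonneg (by omega)]; ring
    calc (F.card : ℤ) ≤ ((2 * (⌊K / δ⌋ + 1 - -⌊K / δ⌋).toNat : ℕ) : ℤ) := by exact_mod_cast hcard
      _ = 2 * (2 * ⌊K / δ⌋ + 1) := by push_cast; rw [← this]
  have h2 : (F.card : ℝ) ≤ 2 * (2 * (⌊K / δ⌋ : ℝ) + 1) := by exact_mod_cast h1
  have h3 := Int.floor_le (K / δ)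
  have h4 : K / δ = K * ((n : ℝ) + 1) := by rw [hδ]; field_simp
  rw [h4] at h3 h2
  linarith

end Vale.Agent.P158
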