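import Vale.Agent.P158.Det2
import Vale.Agent.P158.Osc
import Mathlib.MeasureTheory.Constructions.BorelSpace.Order
import Mathlib.MeasureTheory.Constructions.BorelSpace.Real
import Mathlib.MeasureTheory.MeasurableSpace.Constructions
import Mathlib.MeasureTheory.Group.Arithmetic

/-! Measurability of the events. -/

namespace Vale.Agent.P158

open Filter MeasureTheory

variable {α : Type*} [MeasurableSpace α]

theorem mle {f g : α → ℝ} (hf : Measurable f) (hg : Measurable g) :
    Measurable fun t => f t ≤ g t := measurableSet_setOfPred.1 (measurableSet_le hf hg)

theorem mlt {f g : α → ℝ} (hf : Measurable f) (hg : Measurable g) :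
    Measurable fun t => f t < g t := measurableSet_setOfPred.1 (measurableSet_lt hf hg)

theorem mconst (p : Prop) : Measurable fun _ : α => p := measurable_const

theorem m_ev_int {P : α → ℤ → Prop} (h : ∀ N, Measurable fun t => P t N) :
    Measurable fun t => ∀ᶠ N in atTop, P t N := by
  simp only [eventually_atTop]
  exact Measurable.exists fun M => Measurable.forall fun N => (mconst _).imp (h N)

theorem m_ev_nat {P : α → ℕ → Prop} (h : ∀ N, Measurable fun t => P t N) :
    Measurable fun t => ∀ᶠ N in atTop, P t N := by
  simp only [eventually_atTop]
  exact Measurable.exists fun M => Measurable.forall fun N => (mconst _).imp (h N)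

theorem m_fr_int {P : α → ℤ → Prop} (h : ∀ N, Measurable fun t => P t N) :
    Measurable fun t => ∃ᶠ N in atTop, P t N := (m_ev_int fun N => (h N).not).not

theorem m_subst {β : Type*} [MeasurableSpace β] {F : α → V → β}
    (hF : ∀ z, Measurable fun t => F t z) {f : α → V} (hf : Measurable f) :
    Measurable fun t => F t (f t) := by
  have h : Measurable (fun p : V × α => F p.2 p.1) :=
    measurable_from_prod_countable_right fun z => hF z
  exact h.comp (hf.prodMk measurable_id)

theorem measurable_wt (x y : V) : Measurable fun t : Env => wt t x y := by
  unfold wt
  by_cases h : latt.Adj x y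
  · simp only [dif_pos h]; exact measurable_pi_apply _
  · simp only [dif_neg h]; exact measurable_const

instance (x y : V) : Countable (latt.Walk x y) := by
  have : Function.Injective (fun p : latt.Walk x y => p.support) := fun p q h =>
    SimpleGraph.Walk.ext_support h
  exact this.countable

theorem measurable_ww {x y : V} (p : latt.Walk x y) : Measurable fun t : Env => ww (wt t) p := by
  induction p with
  | nil => simp only [ww_nil]; exact measurable_const
  | cons h p ih => simp only [ww_cons]; exact (measurable_wt _ _).add ih

theorem measurable_PT (S : Set V) (x y : V) : Measurable fun t : Env => PT (wt t) S x y :=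
  Measurable.iInf fun p => measurable_ww p.1

theorem measurable_T (x y : V) : Measurable fun t : Env => T (wt t) x y := measurable_PT _ _ _

theorem measurable_g (N : ℤ) (x y : V) (j : ℤ) :
    Measurable fun t : Env => g (wt t) N x y j := (measurable_PT _ _ _).sub (measurable_PT _ _ _)

theorem measurable_Step (m : ℝ) (z a : V) : Measurable fun t : Env => Step (wt t) m z a := by
  unfold Step
  refine (mconst _).and (Measurable.and ?_ ?_)
  · exact Measurable.forall fun n => Measurable.exists fun k => m_fr_int fun N =>
      Measurable.forall fun j => (mconst _).imp
        (mle ((measurable_wt _ _).sub measurable_const) (measurable_g _ _ _ _))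
  · exact Measurable.forall fun n => Measurable.forall fun k => m_ev_int fun N =>
      Measurable.exists fun j => (mconst _).and
        (mle ((measurable_wt _ _).sub measurable_const) (measurable_g _ _ _ _))

theorem measurable_Bad (m : ℝ) (x y : V) (n : ℕ) :
    Measurable fun t : Env => Bad (wt t) m x y n := by
  unfold Bad
  exact Measurable.forall fun k => m_ev_int fun N => Measurable.exists fun j =>
    Measurable.exists fun j' => (mconst _).and ((mconst _).and
      (mlt measurable_const ((measurable_g _ _ _ _).sub (measurable_g _ _ _ _))))

theorem measurable_Small (m : ℝ) (x y : V) :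
    Measurable fun t : Env => Small (wt t) m x y := by
  simp only [small_iff]
  exact Measurable.forall fun n => (measurable_Bad m x y n).not

theorem measurable_phi (m : ℝ) (z : V) : Measurable fun t : Env => phi (wt t) m z := by
  unfold phi
  exact Measurable.ite (measurable_Step _ _ _).setOf measurable_const
    (Measurable.ite (measurable_Step _ _ _).setOf measurable_const
      (Measurable.ite (measurable_Step _ _ _).setOf measurable_const
        (Measurable.ite (measurable_Step _ _ _).setOf measurable_const measurable_const)))

theorem measurable_orb (m : ℝ) (z : V) (n : ℕ) :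
    Measurable fun t : Env => orb (wt t) m z n := by
  induction n with
  | zero => exact measurable_const
  | succ n ih =>
    simp only [orb_succ]
    exact m_subst (F := fun t z => phi (wt t) m z) (measurable_phi m) ih

theorem m_eqV {f g : α → V} (hf : Measurable f) (hg : Measurable g) :
    Measurable fun t => f t = g t := by
  have h := m_subst (F := fun t z => f t = z) (fun z =>
    measurableSet_setOfPred.1 (hf (measurableSet_singleton z))) hg
  exact h

theorem measurable_Orb (m : ℝ) (z : V) : Measurable fun t : Env => Orb (wt t) m z := by
  have ho := measurable_orb m z
  unfold Orb IsRay Slope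
  refine Measurable.and (Measurable.and ?_ ?_) ?_
  · refine Measurable.forall fun i => ?_
    exact m_subst (F := fun t y => latt.Adj (orb (wt t) m z i) y)
      (fun y => m_subst (F := fun _ x => latt.Adj x y) (fun x => mconst _) (ho i)) (ho (i + 1))
  · refine Measurable.forall fun n => ?_
    refine measurableSet_setOfPred.1 (measurableSet_eq_fun ?_ ?_)
    · refine Finset.measurable_sum _ fun i _ => ?_
      exact m_subst (F := fun t y => wt t (orb (wt t) m z i) y)
        (fun y => m_subst (F := fun t x => wt t x y) (fun x => measurable_wt x y) (ho i))
        (ho (i + 1))
    · exact m_subst (F := fun t y => T (wt t) (orb (wt t) m z 0) y)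
        (fun y => m_subst (F := fun t x => T (wt t) x y) (fun x => measurable_T x y) (ho 0))
        (ho n)
  · refine Measurable.forall fun q => m_ev_nat fun i => ?_
    exact m_subst (F := fun _ (y : V) => (q : ℝ) * |(y.2 : ℝ) - m * (y.1 : ℝ)| ≤ (y.1 : ℝ) ∧
      (q : ℝ) ≤ (y.1 : ℝ)) (fun y => mconst _) (ho i)

theorem measurable_Trunk (m : ℝ) (v : V) : Measurable fun t : Env => Trunk (wt t) m v := by
  unfold Trunk
  exact Measurable.forall fun n => Measurable.exists fun u =>
    (m_eqV (measurable_orb m u n) measurable_const).and (measurable_Orb m u)

theorem measurable_Same (m : ℝ) (u v : V) : Measurable fun t : Env => Same (wt t) m u v := by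
  unfold Same
  exact Measurable.exists fun n => Measurable.exists fun k =>
    m_eqV (measurable_orb m u n) (measurable_orb m v k)

theorem measurable_Reg (m : ℝ) (x v : V) : Measurable fun t : Env => Reg (wt t) m x v := by
  unfold Reg bus
  refine (measurable_T x v).sub (Measurable.iInf fun n => ?_)
  refine Measurable.sub ?_ ?_
  · exact m_subst (F := fun t y => T (wt t) x y) (fun y => measurable_T x y)
      (measurable_orb m v n)
  · exact m_subst (F := fun t y => T (wt t) (orb (wt t) m v 0) y)
        (fun y => m_subst (F := fun t x => T (wt t) x y) (fun x => measurable_T x y)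
        (measurable_orb m v 0)) (measurable_orb m v n)

theorem measurable_Near (m : ℝ) (d : ℕ) (u v : V) :
    Measurable fun t : Env => Near (wt t) m d u v := by
  unfold Near
  exact Measurable.exists fun x => Measurable.exists fun y =>
    (measurable_Trunk m x).and ((measurable_Trunk m y).and ((measurable_Same m x u).and
      ((measurable_Same m y v).and (mconst _))))

theorem measurable_Nst (m : ℝ) (u v : V) : Measurable fun t : Env => Nst (wt t) m u v := by
  unfold Nst
  exact (measurable_Trunk m u).and ((measurable_Same m u v).not.and
    (Measurable.exists fun d => (measurable_Near m d u v).and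
      (Measurable.forall fun u' => Measurable.forall fun d' => (measurable_Trunk m u').imp
        ((measurable_Same m u' v).not.imp ((measurable_Near m d' u' v).imp (mconst _))))))

theorem measurable_Aev (m : ℝ) (n : ℕ) (v : V) :
    Measurable fun t : Env => Aev (wt t) m n v := by
  unfold Aev
  exact Measurable.exists fun u => (measurable_Nst m u v).and (Measurable.forall fun x =>
    (measurable_Trunk m x).imp ((measurable_Same m x u).imp
      (mlt measurable_const (measurable_Reg m x v))))

theorem measurable_TBev (m : ℝ) (u z : V) :
    Measurable fun t : Env => TBev (wt t) m u z := by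
  unfold TBev
  exact (measurable_Trunk m z).and ((measurable_Trunk m u).and
    ((measurable_Same m u z).not.and (Measurable.forall fun n => Measurable.exists fun x =>
      (measurable_Trunk m x).and ((measurable_Same m x u).and
        (mle (measurable_Reg m x z) measurable_const)))))

theorem measurable_Adm : Measurable fun t : Env => Adm (wt t) := by
  have : (fun t : Env => Adm (wt t)) = fun t => (∀ x y, wt t x y = wt t y x) ∧
      ∀ x y, latt.Adj x y → 0 < wt t x y := by
    funext t
    exact propext ⟨fun h => ⟨h.symm, h.pos⟩, fun h => ⟨h.1, h.2⟩⟩
  rw [this]
  exact (Measurable.forall fun x => Measurable.forall fun y =>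
    measurableSet_setOfPred.1 (measurableSet_eq_fun (measurable_wt _ _)
      (measurable_wt _ _))).and (Measurable.forall fun x => Measurable.forall fun y =>
      (mconst _).imp (mlt measurable_const (measurable_wt _ _)))

theorem measurable_Good (m : ℝ) : Measurable fun t : Env => Good (wt t) m := by
  have : (fun t : Env => Good (wt t) m) = fun t => Adm (wt t) ∧
      (∀ x y, Small (wt t) m x y) ∧
      ∀ z a a', Step (wt t) m z a → Step (wt t) m z a' → a = a' := by
    funext t
    exact propext ⟨fun h => ⟨h.adm, h.small, h.uniq⟩, fun h => ⟨h.1, h.2.1, h.2.2⟩⟩
  rw [this]
  exact measurable_Adm.and ((Measurable.forall fun x => Measurable.forall fun y =>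
    measurable_Small m x y).and (Measurable.forall fun z => Measurable.forall fun a =>
      Measurable.forall fun a' => (measurable_Step m z a).imp
        ((measurable_Step m z a').imp (mconst _))))

theorem measurable_InjT (m : ℝ) : Measurable fun t : Env => InjT (wt t) m := by
  unfold InjT
  exact Measurable.forall fun u => Measurable.forall fun u' => (measurable_Trunk m u).imp
    ((measurable_Trunk m u').imp ((m_eqV (measurable_phi m u) (measurable_phi m u')).imp
      (mconst _)))

end Vale.Agent.P158
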