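import Vale.Agent.P158.AS

/-! Consequences of mass transport. -/

namespace Vale.Agent.P158

open Filter MeasureTheory
open scoped ENNReal

variable {G : Measure ℝ} [IsProbabilityMeasure G] {m : ℝ}

theorem ae_pred (hadm : ∀ᵐ t ∂PG G, Adm (wt t)) (B : Env → V → Prop)
    (hB : ∀ v, Measurable fun t => B t v)
    (hinv : ∀ᵐ t ∂PG G, ∀ u v, B (shE u t) v ↔ B t (v + u))
    (hpred : ∀ᵐ t ∂PG G, ∀ v, B t v → ∃ x, B t x ∧ phi (wt t) m x = v) :
    ∀ᵐ t ∂PG G, ∀ x y, B t x → B t y → phi (wt t) m x = phi (wt t) m y →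
      x = y ∧ B t (phi (wt t) m x) := by
  classical
  set f : Env → V → V → ℝ≥0∞ := fun t x y => if B t x ∧ phi (wt t) m x = y then 1 else 0
    with hf
  have hfm : ∀ x y, Measurable fun t => f t x y := fun x y =>
    Measurable.ite ((hB x).and (m_eqV (measurable_phi m x) measurable_const)).setOf
      measurable_const measurable_const
  have hfi : ∀ᵐ t ∂PG G, ∀ u x y, f (shE u t) x y = f t (x + u) (y + u) := by
    filter_upwards [hadm, hinv] with t h1 h2 u x y
    simp only [hf]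
    have e1 : (B (shE u t) x ∧ phi (wt (shE u t)) m x = y) ↔
        (B t (x + u) ∧ phi (wt t) m (x + u) = y + u) := by
      rw [h2, wt_shE, ← phi_sh h1, add_left_inj]
    by_cases h : B t (x + u) ∧ phi (wt t) m (x + u) = y + u
    · rw [if_pos h, if_pos (e1.2 h)]
    · rw [if_neg h, if_neg (fun h' => h (e1.1 h'))]
  have hmt := mtp f hfm hfi
  have hO : ∀ t, ∑' y, f t 0 y = if B t 0 then 1 else 0 := by
    intro t
    simp only [hf]
    by_cases h : B t 0
    · rw [if_pos h, tsum_eq_single (phi (wt t) m 0)]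
      · rw [if_pos ⟨h, rfl⟩]
      · intro y hy
        rw [if_neg (fun h' => hy h'.2.symm)]
    · rw [if_neg h]
      simp [h]
  have hle : (fun t => ∑' y, f t 0 y) ≤ᵐ[PG G] fun t => ∑' y, f t y 0 := by
    filter_upwards [hpred] with t ht
    rw [hO]
    by_cases h : B t 0
    · rw [if_pos h]
      obtain ⟨x, hx, hx'⟩ := ht 0 h
      refine le_trans (le_of_eq ?_) (ENNReal.le_tsum x)
      simp only [hf]
      rw [if_pos ⟨hx, hx'⟩]
    · rw [if_neg h]; exact bot_le
  have hfin : ∫⁻ t, ∑' y, f t 0 y ∂PG G ≠ ∞ := by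
    refine ne_of_lt (lt_of_le_of_lt (b := ∫⁻ _, 1 ∂PG G) ?_ (by simp))
    refine lintegral_mono fun t => ?_
    rw [hO]
    split_ifs <;> simp
  have heq := ae_eq_of_ae_le_of_lintegral_le hle hfin
    (Measurable.tsum fun y => hfm y 0).aemeasurable hmt.symm.le
  have h0 : ∀ᵐ t ∂PG G, ∀ x y, B t x → B t y → phi (wt t) m x = 0 → phi (wt t) m y = 0 →
      x = y ∧ B t 0 := by
    filter_upwards [heq] with t ht x y hx hy hx' hy'
    rw [hO] at ht
    have fx : f t x 0 = 1 := by simp only [hf]; rw [if_pos ⟨hx, hx'⟩]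
    have fy : f t y 0 = 1 := by simp only [hf]; rw [if_pos ⟨hy, hy'⟩]
    constructor
    · by_contra hne
      have h1 : (2 : ℝ≥0∞) ≤ ∑' y, f t y 0 := by
        refine le_trans (le_of_eq ?_) (ENNReal.sum_le_tsum {x, y})
        rw [Finset.sum_pair hne, fx, fy]
        norm_num
      rw [← ht] at h1
      split_ifs at h1 <;> norm_num at h1
    · by_contra hne
      rw [if_neg hne] at ht
      have h1 := ENNReal.le_tsum (f := fun y => f t y 0) x
      rw [← ht] at h1
      simp only [fx] at h1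
      norm_num at h1
  filter_upwards [hadm, hinv, ae_shift h0] with t h1 h2 h3 x y hx hy hxy
  have h4 := h3 (phi (wt t) m x) (x - phi (wt t) m x) (y - phi (wt t) m x)
    (by rw [h2, sub_add_cancel]; exact hx) (by rw [h2, sub_add_cancel]; exact hy)
    (by
      rw [wt_shE]
      have := phi_sh h1 (phi (wt t) m x) m (x - phi (wt t) m x)
      rw [sub_add_cancel] at this
      exact add_eq_right.1 this)
    (by
      rw [wt_shE]
      have := phi_sh h1 (phi (wt t) m x) m (y - phi (wt t) m x)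
      rw [sub_add_cancel, ← hxy] at this
      exact add_eq_right.1 this)
  refine ⟨by simpa using h4.1, ?_⟩
  have := h4.2
  rwa [h2, zero_add] at this

theorem ae_inj (hadm : ∀ᵐ t ∂PG G, Adm (wt t)) : ∀ᵐ t ∂PG G, InjT (wt t) m := by
  have h := ae_pred (m := m) hadm (fun t v => Trunk (wt t) m v) (measurable_Trunk m)
    (by
      filter_upwards [hadm] with t ht u v
      rw [wt_shE]
      exact Trunk_sh ht u m v)
    (by
      filter_upwards [hadm] with t ht v hv
      exact hv.pred ht)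
  filter_upwards [h] with t ht u u' hu hu' huu
  exact (ht u u' hu hu' huu).1

theorem ae_aev (hadm : ∀ᵐ t ∂PG G, Adm (wt t)) :
    ∀ᵐ t ∂PG G, ∀ n v, Trunk (wt t) m v → Aev (wt t) m n v →
      Aev (wt t) m n (phi (wt t) m v) := by
  rw [ae_all_iff]
  intro n
  have h := ae_pred (m := m) hadm (fun t v => Trunk (wt t) m v ∧ Aev (wt t) m n v)
    (fun v => (measurable_Trunk m v).and (measurable_Aev m n v))
    (by
      filter_upwards [hadm] with t ht u v
      rw [wt_shE]
      exact and_congr (Trunk_sh ht u m v) (Aev_sh ht u m n v))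
    (by
      filter_upwards [hadm] with t ht v hv
      obtain ⟨x, hx, hx'⟩ := hv.1.pred ht
      exact ⟨x, ⟨hx, Aev.of_phi ht hx (by rw [hx']; exact hv.2)⟩, hx'⟩)
  filter_upwards [h] with t ht v hv hA
  exact (ht v v ⟨hv, hA⟩ ⟨hv, hA⟩ rfl).2.2

/-- `v` is the last leftmost vertex of its trunk. -/
def LL (w : V → V → ℝ) (m : ℝ) (v : V) : Prop :=
  Trunk w m v ∧ (∀ u, Trunk w m u → Same w m u v → v.1 ≤ u.1) ∧
    ∀ n : ℕ, v.1 < (orb w m v (n + 1)).1

theorem measurable_LL (m : ℝ) (v : V) : Measurable fun t : Env => LL (wt t) m v := by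
  unfold LL
  refine (measurable_Trunk m v).and (Measurable.and ?_ ?_)
  · exact Measurable.forall fun u => (measurable_Trunk m u).imp
      ((measurable_Same m u v).imp (mconst _))
  · exact Measurable.forall fun n => m_subst (F := fun _ (y : V) => v.1 < y.1)
      (fun y => mconst _) (measurable_orb m v (n + 1))

theorem LL_sh {w : V → V → ℝ} (hw : Adm w) (u : V) (m : ℝ) (v : V) :
    LL (sh u w) m v ↔ LL w m (v + u) := by
  unfold LL
  rw [Trunk_sh hw]
  refine and_congr Iff.rfl (and_congr ?_ ?_)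
  · rw [← forall_add_iff u (fun x => Trunk w m x → Same w m x (v + u) → (v + u).1 ≤ x.1)]
    refine forall_congr' fun x => ?_
    rw [Trunk_sh hw, Same_sh hw, Prod.fst_add, Prod.fst_add, add_le_add_iff_right]
  · refine forall_congr' fun n => ?_
    rw [← orb_sh hw, Prod.fst_add, Prod.fst_add, add_lt_add_iff_right]

theorem LL_unique {w : V → V → ℝ} (hw : Adm w) (hi : InjT w m) {u v : V} (hu : LL w m u)
    (hv : LL w m v) (h : Same w m u v) : u = v := by
  obtain ⟨n, hn | hn⟩ := h.comparable hw hi hu.1 hv.1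
  · cases n with
    | zero => exact hn
    | succ n =>
      have h1 := hu.2.2 n
      rw [hn] at h1
      have h2 := hv.2.1 u hu.1 h
      omega
  · cases n with
    | zero => exact hn.symm
    | succ n =>
      have h1 := hv.2.2 n
      rw [hn] at h1
      have h2 := hu.2.1 v hv.1 h.symm
      omega

theorem exists_LL {w : V → V → ℝ} (hw : Adm w) {v : V} (hv : Trunk w m v) {L : ℤ}
    (hL : ∀ u, Trunk w m u → Same w m u v → L ≤ u.1) : ∃ u, LL w m u := by
  classical
  -- a vertex with minimal first coordinate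
  obtain ⟨b, ⟨u, hu, huv, hub⟩, hmin⟩ := Int.exists_least_of_bdd
    (P := fun b : ℤ => ∃ u, Trunk w m u ∧ Same w m u v ∧ u.1 = b)
    ⟨L, by rintro _ ⟨u, hu, huv, rfl⟩; exact hL u hu huv⟩ ⟨v.1, v, hv, Same.refl _ _ _, rfl⟩
  obtain ⟨M, hM⟩ := eventually_atTop.1 (hu.toOrb.2 ((b + 1).toNat))
  have hbig : ∀ n, M ≤ n → b < (orb w m u n).1 := by
    intro n hn
    have h1 := (hM n hn).2
    have h2 : ((b + 1).toNat : ℤ) ≤ (orb w m u n).1 := by exact_mod_cast h1
    omega
  set n₀ := Nat.findGreatest (fun n => (orb w m u n).1 = b) M with hn₀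
  have hspec : (orb w m u n₀).1 = b :=
    Nat.findGreatest_spec (P := fun n => (orb w m u n).1 = b) (Nat.zero_le M) hub
  have hT : ∀ n, Trunk w m (orb w m u n) ∧ Same w m (orb w m u n) v := fun n =>
    ⟨hu.orb hw n, (same_orb w m u n).trans huv⟩
  have hgt : ∀ n, n₀ < n → b < (orb w m u n).1 := by
    intro n hn
    rcases Nat.lt_or_ge n M with h | h
    · have h1 : (orb w m u n).1 ≠ b :=
        Nat.findGreatest_is_greatest (P := fun n => (orb w m u n).1 = b) hn h.le
      have h2 := hmin _ ⟨orb w m u n, (hT n).1, (hT n).2, rfl⟩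
      omega
    · exact hbig n h
  refine ⟨orb w m u n₀, (hT n₀).1, fun u' hu' hs' => ?_, fun n => ?_⟩
  · rw [hspec]
    exact hmin _ ⟨u', hu', hs'.trans (hT n₀).2, rfl⟩
  · rw [hspec, ← orb_add]
    exact hgt _ (by omega)

theorem ae_noLL (hadm : ∀ᵐ t ∂PG G, Adm (wt t)) : ∀ᵐ t ∂PG G, ∀ v, ¬ LL (wt t) m v := by
  classical
  set f : Env → V → V → ℝ≥0∞ := fun t x y =>
    if LL (wt t) m y ∧ Same (wt t) m x y ∧ Trunk (wt t) m x then 1 else 0 with hf
  have hfm : ∀ x y, Measurable fun t => f t x y := fun x y =>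
    Measurable.ite ((measurable_LL m y).and ((measurable_Same m x y).and
      (measurable_Trunk m x))).setOf measurable_const measurable_const
  have hfi : ∀ᵐ t ∂PG G, ∀ u x y, f (shE u t) x y = f t (x + u) (y + u) := by
    filter_upwards [hadm] with t h1 u x y
    simp only [hf]
    have e1 : (LL (wt (shE u t)) m y ∧ Same (wt (shE u t)) m x y ∧ Trunk (wt (shE u t)) m x) ↔
        (LL (wt t) m (y + u) ∧ Same (wt t) m (x + u) (y + u) ∧ Trunk (wt t) m (x + u)) := by
      rw [wt_shE, LL_sh h1, Same_sh h1, Trunk_sh h1]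
    by_cases h : LL (wt t) m (y + u) ∧ Same (wt t) m (x + u) (y + u) ∧
        Trunk (wt t) m (x + u)
    · rw [if_pos h, if_pos (e1.2 h)]
    · rw [if_neg h, if_neg (fun h' => h (e1.1 h'))]
  have hmt := mtp f hfm hfi
  have hle : ∫⁻ t, ∑' y, f t 0 y ∂PG G ≤ 1 := by
    refine le_trans (lintegral_mono_ae (g := fun _ => 1) ?_) (by simp)
    filter_upwards [hadm, ae_inj (m := m) hadm] with t h1 h2
    by_cases h : ∃ y, LL (wt t) m y ∧ Same (wt t) m 0 y ∧ Trunk (wt t) m 0
    · obtain ⟨y, hy⟩ := h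
      rw [tsum_eq_single y]
      · simp only [hf]; split_ifs <;> simp
      · intro y' hy'
        simp only [hf]
        rw [if_neg]
        rintro ⟨a1, a2, -⟩
        exact hy' (LL_unique h1 h2 a1 hy.1 (a2.symm.trans hy.2.1))
    · push Not at h
      have : ∀ y, f t 0 y = 0 := fun y => by
        simp only [hf]
        rw [if_neg]
        rintro ⟨a1, a2, a3⟩
        exact h y a1 a2 a3
      simp [this]
  have hfin : ∀ᵐ t ∂PG G, ∑' y, f t y 0 < ∞ := by
    refine ae_lt_top (Measurable.tsum fun y => hfm y 0) ?_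
    rw [← hmt]
    exact ne_of_lt (lt_of_le_of_lt hle ENNReal.one_lt_top)
  have h0 : ∀ᵐ t ∂PG G, ¬ LL (wt t) m 0 := by
    filter_upwards [hadm, hfin] with t h1 h2 h3
    have hinj : Function.Injective (orb (wt t) m 0) := h3.1.toOrb.1.injective h1
    have h4 := ENNReal.tsum_comp_le_tsum_of_injective hinj (fun y => f t y 0)
    have h5 : ∀ n, f t (orb (wt t) m 0 n) 0 = 1 := fun n => by
      simp only [hf]
      rw [if_pos ⟨h3, same_orb _ _ _ _, h3.1.orb h1 n⟩]
    simp only [h5, ENNReal.tsum_const_eq_top_of_ne_zero one_ne_zero] at h4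
    exact absurd h2 (not_lt.2 h4)
  filter_upwards [hadm, ae_shift h0] with t h1 h2 v hv
  apply h2 v
  rw [wt_shE, LL_sh h1, zero_add]
  exact hv

theorem ae_leftUnb (hadm : ∀ᵐ t ∂PG G, Adm (wt t)) : ∀ᵐ t ∂PG G, LeftUnb (wt t) m := by
  filter_upwards [hadm, ae_noLL (m := m) hadm] with t h1 h2 v hv L
  by_contra hcon
  push Not at hcon
  obtain ⟨u, hu⟩ := exists_LL h1 hv (L := L) hcon
  exact h2 u hu

theorem ae_noTB [NullSingletonClass G] (hgood : ∀ᵐ t ∂PG G, Good (wt t) m) :
    ∀ᵐ t ∂PG G, ∀ u z, ¬ TBev (wt t) m u z := by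
  have hadm : ∀ᵐ t ∂PG G, Adm (wt t) := by
    filter_upwards [hgood] with t ht
    exact ht.adm
  have h : ∀ᵐ t ∂PG G, ∀ u z a : V, ¬ ((Good (wt t) m ∧ InjT (wt t) m) ∧
      TBev (wt t) m u z ∧ phi (wt t) m z = a) := by
    rw [ae_all_iff]
    intro u
    rw [ae_all_iff]
    intro z
    rw [ae_all_iff]
    intro a
    rw [ae_iff]
    simp only [not_not]
    by_cases hadj : latt.Adj z a
    · refine null_of_section ?_ ⟨s(z, a), hadj⟩ ?_
      · exact (((measurable_Good m).and (measurable_InjT m)).and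
          ((measurable_TBev m u z).and (m_eqV (measurable_phi m z) measurable_const))).setOf
      · rintro t s₀ s₁ hlt ⟨⟨hG0, -⟩, hT0, hp0⟩ ⟨⟨hG1, hI1⟩, hT1, hp1⟩
        refine tb_subsingleton hG0 hG1 hI1 ?_ (fun x y hxy => ?_) hT0 hT1 hp0 hp1
        · rw [wt_update_self, wt_update_self]; exact hlt
        · rw [wt_update_of_ne _ _ _ hxy, wt_update_of_ne _ _ _ hxy]
    · convert measure_empty (μ := PG G)
      ext t
      simp only [Set.mem_ofPred_eq, Set.mem_empty_iff_false, iff_false]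
      rintro ⟨-, h, h'⟩
      have := h.1.toOrb.1.1 0
      rw [zero_add, orb_zero] at this
      exact hadj (h' ▸ this)
  filter_upwards [h, hgood, ae_inj (m := m) hadm] with t h1 h2 h3 u z hT
  exact h1 u z _ ⟨⟨h2, h3⟩, hT, rfl⟩

theorem ae_all_same [NullSingletonClass G] (hgood : ∀ᵐ t ∂PG G, Good (wt t) m) :
    ∀ᵐ t ∂PG G, ∀ u v, Trunk (wt t) m u → Trunk (wt t) m v → Same (wt t) m u v := by
  have hadm : ∀ᵐ t ∂PG G, Adm (wt t) := by
    filter_upwards [hgood] with t ht
    exact ht.adm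
  filter_upwards [hadm, ae_inj (m := m) hadm, ae_leftUnb (m := m) hadm, ae_aev (m := m) hadm,
    ae_noTB hgood] with t h1 h2 h3 h4 h5 u v hu hv
  exact all_same h1 h2 h3 h4 h5 hu hv

end Vale.Agent.P158
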