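import Vale.Agent.P158.Trunk

/-! Planarity of trunks: at most two nearest trunks. -/

namespace Vale.Agent.P158

open Filter

variable {w : V → V → ℝ} {m : ℝ} {u v x y z a : V}

theorem exists_walk_seg {r : ℕ → V} (hadj : ∀ i, latt.Adj (r i) (r (i + 1))) (n : ℕ) :
    ∃ p : latt.Walk (r 0) (r n), ∀ z ∈ p.support, ∃ k, k ≤ n ∧ z = r k := by
  induction n with
  | zero => exact ⟨SimpleGraph.Walk.nil, fun z hz => ⟨0, le_rfl, by simpa using hz⟩⟩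
  | succ n ih =>
    obtain ⟨p, hp⟩ := ih
    refine ⟨p.append (SimpleGraph.Walk.cons (hadj n) SimpleGraph.Walk.nil),
      fun z hz => ?_⟩
    rw [SimpleGraph.Walk.mem_support_append_iff] at hz
    rcases hz with hz | hz
    · obtain ⟨k, h2, h3⟩ := hp z hz
      exact ⟨k, by omega, h3⟩
    · simp only [SimpleGraph.Walk.support_cons, SimpleGraph.Walk.support_nil,
        List.mem_cons, List.not_mem_nil, or_false] at hz
      rcases hz with hz | hz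
      · exact ⟨n, by omega, hz⟩
      · exact ⟨n + 1, by omega, hz⟩

/-- First hitting time of column `N`. -/
noncomputable def hitn (r : ℕ → V) (N : ℤ) : ℕ := sInf {n | (r n).1 = N}

theorem hitn_spec {r : ℕ → V} (hr : IsRay w r) (hs : Slope m r) {N : ℤ} (hN : (r 0).1 ≤ N) :
    (r (hitn r N)).1 = N ∧ ∀ i, i ≤ hitn r N → (r i).1 ≤ N := by
  obtain ⟨n, hn, hn'⟩ := exists_hit hr hs hN
  have hne : {n | (r n).1 = N}.Nonempty := ⟨n, hn⟩
  refine ⟨Nat.sInf_mem hne, fun i hi => ?_⟩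
  exact hn' i (hi.trans (Nat.sInf_le hn))

/-- Height of the first hit of column `N`. -/
noncomputable def hth (r : ℕ → V) (N : ℤ) : ℤ := (r (hitn r N)).2

theorem hth_spec {r : ℕ → V} (hr : IsRay w r) (hs : Slope m r) {N : ℤ} (hN : (r 0).1 ≤ N) :
    r (hitn r N) = (N, hth r N) := Prod.ext (hitn_spec hr hs hN).1 rfl

theorem exists_lower {r : ℕ → V} (hs : Slope m r) : ∃ L : ℤ, ∀ i, L ≤ (r i).1 := by
  obtain ⟨n, hn⟩ := eventually_atTop.1 (hs 0)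
  obtain ⟨L, hL⟩ : ∃ L : ℤ, ∀ i ∈ Finset.range n, L ≤ (r i).1 := by
    obtain ⟨L, hL⟩ := ((Finset.range n).image fun i => (r i).1).bddBelow
    exact ⟨L, fun i hi => hL (by simpa using ⟨i, by simpa using hi, rfl⟩)⟩
  refine ⟨min L 0, fun i => ?_⟩
  rcases Nat.lt_or_ge i n with h | h
  · exact (min_le_left _ _).trans (hL i (Finset.mem_range.2 h))
  · have := (hn i h).2
    have h' : (0 : ℤ) ≤ (r i).1 := by exact_mod_cast (by simpa using this : (0 : ℝ) ≤ (r i).1)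
    exact (min_le_right _ _).trans h'

/-- Two paths to column `N` from the ends of a connecting walk. -/
theorem sandwich_aux {r₀ r₂ : ℕ → V} (h0 : IsRay w r₀) (hs0 : Slope m r₀)
    (h2 : IsRay w r₂) (hs2 : Slope m r₂) (P : latt.Walk (r₀ 0) (r₂ 0))
    {β : ℕ → V} (hβ : ∀ i, latt.Adj (β i) (β (i + 1))) {r₁ : ℕ → V} (h1 : IsRay w r₁)
    (hs1 : Slope m r₁) (h01 : r₁ 0 = β 0)
    (d0 : ∀ i j, r₀ i ≠ β j) (d2 : ∀ i j, r₂ i ≠ β j) (dP : ∀ j, β j ∉ P.support)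
    (d0' : ∀ i j, r₀ i ≠ r₁ j) (d2' : ∀ i j, r₂ i ≠ r₁ j) (dP' : ∀ j, r₁ j ∉ P.support)
    (hbtw : ∃ᶠ N : ℤ in atTop, hth r₀ N < hth r₁ N ∧ hth r₁ N < hth r₂ N) :
    ∃ L : ℤ, ∀ i, L ≤ (β i).1 := by
  obtain ⟨L0, hL0⟩ := exists_lower hs0
  obtain ⟨L2, hL2⟩ := exists_lower hs2
  obtain ⟨L3, hL3⟩ : ∃ L : ℤ, ∀ z ∈ P.support, L ≤ z.1 := by
    obtain ⟨L, hL⟩ := (P.support.toFinset.image fun z => z.1).bddBelow
    exact ⟨L, fun i hi => hL (by
      simp only [Finset.coe_image, Set.mem_image, List.coe_toFinset]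
      exact ⟨i, hi, rfl⟩)⟩
  refine ⟨min L0 (min L2 L3), fun k => ?_⟩
  obtain ⟨Q, hQ⟩ := exists_walk_seg hβ k
  have hev : ∀ᶠ N : ℤ in atTop, (r₀ 0).1 ≤ N ∧ (r₁ 0).1 ≤ N ∧ (r₂ 0).1 ≤ N ∧
      (∀ z ∈ P.support, z ∈ HN N) ∧ (∀ z ∈ Q.support, z ∈ HN N) :=
    (eventually_ge_atTop _).and ((eventually_ge_atTop _).and ((eventually_ge_atTop _).and
      ((eventually_walk_HN P).and (eventually_walk_HN Q))))
  obtain ⟨N, ⟨hb1, hb2⟩, hN0, hN1, hN2, hNP, hNQ⟩ := (hbtw.and_eventually hev).exists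
  obtain ⟨s0, hs0'⟩ := exists_walk_seg h0.1 (hitn r₀ N)
  obtain ⟨s1, hs1'⟩ := exists_walk_seg h1.1 (hitn r₁ N)
  obtain ⟨s2, hs2'⟩ := exists_walk_seg h2.1 (hitn r₂ N)
  have e0 := hth_spec h0 hs0 hN0
  have e1 := hth_spec h1 hs1 hN1
  have e2 := hth_spec h2 hs2 hN2
  have f0 := (hitn_spec h0 hs0 hN0).2
  have f1 := (hitn_spec h1 hs1 hN1).2
  have f2 := (hitn_spec h2 hs2 hN2).2
  have hA : ∀ z, z ∈ (((s0.copy rfl e0).reverse.append P).append (s2.copy rfl e2)).support →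
      z ∈ HN N ∧ (∀ j, z ≠ β j) ∧ (∀ j, z ≠ r₁ j) ∧ min L0 (min L2 L3) ≤ z.1 := by
    intro z hz
    rw [SimpleGraph.Walk.mem_support_append_iff, SimpleGraph.Walk.mem_support_append_iff,
      SimpleGraph.Walk.support_reverse, List.mem_reverse, SimpleGraph.Walk.support_copy,
      SimpleGraph.Walk.support_copy] at hz
    rcases hz with (hz | hz) | hz
    · obtain ⟨i, hi, rfl⟩ := hs0' z hz
      exact ⟨f0 i hi, d0 i, d0' i, (min_le_left _ _).trans (hL0 i)⟩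
    · refine ⟨hNP z hz, fun j e => dP j (e ▸ hz), fun j e => dP' j (e ▸ hz), ?_⟩
      exact ((min_le_right _ _).trans (min_le_right _ _)).trans (hL3 z hz)
    · obtain ⟨i, hi, rfl⟩ := hs2' z hz
      exact ⟨f2 i hi, d2 i, d2' i, ((min_le_right _ _).trans (min_le_left _ _)).trans (hL2 i)⟩
  have hB : ∀ z, z ∈ ((s1.copy rfl e1).reverse.append (Q.copy h01.symm rfl)).support →
      z ∈ HN N ∧ ((∃ j, z = β j) ∨ ∃ j, z = r₁ j) := by
    intro z hz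
    rw [SimpleGraph.Walk.mem_support_append_iff, SimpleGraph.Walk.support_reverse,
      List.mem_reverse, SimpleGraph.Walk.support_copy, SimpleGraph.Walk.support_copy] at hz
    rcases hz with hz | hz
    · obtain ⟨i, hi, rfl⟩ := hs1' z hz
      exact ⟨f1 i hi, Or.inr ⟨i, rfl⟩⟩
    · refine ⟨hNQ z hz, Or.inl ?_⟩
      obtain ⟨i, -, rfl⟩ := hQ z hz
      exact ⟨i, rfl⟩
  obtain ⟨z, hz, hz'⟩ := trapped hb1 hb2 _ (fun z hz => (hA z hz).1) _
    (fun z hz => (hB z hz).1) (fun z hz hz' => by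
      rcases (hB z hz').2 with ⟨j, hj⟩ | ⟨j, hj⟩
      · exact (hA z hz).2.1 j hj
      · exact (hA z hz).2.2.1 j hj)
  exact ((hA z hz).2.2.2).trans hz'

theorem sandwich {r₀ r₂ : ℕ → V} (h0 : IsRay w r₀) (hs0 : Slope m r₀)
    (h2 : IsRay w r₂) (hs2 : Slope m r₂) (P : latt.Walk (r₀ 0) (r₂ 0))
    {β : ℕ → V} (hβ : ∀ i, latt.Adj (β i) (β (i + 1))) {r₁ : ℕ → V} (h1 : IsRay w r₁)
    (hs1 : Slope m r₁) (h01 : r₁ 0 = β 0)
    (d0 : ∀ i j, r₀ i ≠ β j) (d2 : ∀ i j, r₂ i ≠ β j) (dP : ∀ j, β j ∉ P.support)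
    (d0' : ∀ i j, r₀ i ≠ r₁ j) (d2' : ∀ i j, r₂ i ≠ r₁ j) (dP' : ∀ j, r₁ j ∉ P.support)
    (hbtw : ∃ᶠ N : ℤ in atTop, (hth r₀ N < hth r₁ N ∧ hth r₁ N < hth r₂ N) ∨
      (hth r₂ N < hth r₁ N ∧ hth r₁ N < hth r₀ N)) :
    ∃ L : ℤ, ∀ i, L ≤ (β i).1 := by
  rw [frequently_or_distrib] at hbtw
  rcases hbtw with hbtw | hbtw
  · exact sandwich_aux h0 hs0 h2 hs2 P hβ h1 hs1 h01 d0 d2 dP d0' d2' dP' hbtw
  · exact sandwich_aux h2 hs2 h0 hs0 P.reverse hβ h1 hs1 h01 d2 d0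
      (fun j => by simpa using dP j) d2' d0' (fun j => by simpa using dP' j) hbtw

/-- The trunk classes of `u` and `v` are joined by a walk of length `d`. -/
def Near (w : V → V → ℝ) (m : ℝ) (d : ℕ) (u v : V) : Prop :=
  ∃ x y, Trunk w m x ∧ Trunk w m y ∧ Same w m x u ∧ Same w m y v ∧
    ∃ p : latt.Walk x y, p.length = d

/-- The trunk of `u` is a nearest trunk to the trunk of `v`. -/
def Nst (w : V → V → ℝ) (m : ℝ) (u v : V) : Prop :=
  Trunk w m u ∧ ¬ Same w m u v ∧ ∃ d, Near w m d u v ∧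
    ∀ u' d', Trunk w m u' → ¬ Same w m u' v → Near w m d' u' v → d ≤ d'

/-- No trunk is bounded on the left. -/
def LeftUnb (w : V → V → ℝ) (m : ℝ) : Prop :=
  ∀ v, Trunk w m v → ∀ L : ℤ, ∃ u, Trunk w m u ∧ Same w m u v ∧ u.1 < L

theorem bi_orb {γ : ℤ → V} (h : ∀ n, Trunk w m (γ n) ∧ phi w m (γ n) = γ (n + 1)) (n : ℤ)
    (k : ℕ) : orb w m (γ n) k = γ (n + k) := by
  induction k with
  | zero => simp [orb_zero]
  | succ k ih =>
    rw [orb_succ, ih, (h _).2]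
    congr 1
    push_cast; ring

theorem bi_cover (hw : Adm w) (hi : InjT w m) {γ : ℤ → V}
    (h : ∀ n, Trunk w m (γ n) ∧ phi w m (γ n) = γ (n + 1)) (hu : Trunk w m u)
    (hs : Same w m u (γ 0)) : ∃ n, u = γ n := by
  obtain ⟨n, hn | hn⟩ := hs.comparable hw hi hu (h 0).1
  · refine ⟨-n, hi.eq_of_orb hw hu (h _).1 n ?_⟩
    rw [hn, bi_orb h]
    simp
  · rw [bi_orb h] at hn
    exact ⟨_, hn.symm⟩

theorem pair_false (hw : Adm w) (hi : InjT w m) (hl : LeftUnb w m) {c x₁ x₂ : V}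
    (hc : Trunk w m c) (h1 : Trunk w m x₁) (h2 : Trunk w m x₂) (P : latt.Walk c x₂)
    (hP : ∀ z ∈ P.support, Trunk w m z → Same w m z c ∨ Same w m z x₂)
    (n1 : ¬ Same w m x₁ c) (n2 : ¬ Same w m x₁ x₂)
    (hbtw : ∃ᶠ N : ℤ in atTop,
      (hth (orb w m c) N < hth (orb w m x₁) N ∧ hth (orb w m x₁) N < hth (orb w m x₂) N) ∨
      (hth (orb w m x₂) N < hth (orb w m x₁) N ∧ hth (orb w m x₁) N < hth (orb w m c) N)) :
    False := by
  obtain ⟨γ, hγ0, hγ⟩ := exists_bi hw h1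
  have hb : ∀ k : ℕ, Same w m (γ (-k)) x₁ := fun k => by
    refine ⟨k, 0, ?_⟩
    rw [bi_orb hγ, orb_zero, ← hγ0]
    simp
  have hro : ∀ k : ℕ, Same w m (orb w m x₁ k) x₁ := same_orb w m x₁
  have key : ∀ z, Same w m z x₁ → Trunk w m z → (∀ i, orb w m c i ≠ z) ∧
      (∀ i, orb w m x₂ i ≠ z) ∧ z ∉ P.support := by
    intro z hz hz'
    refine ⟨fun i e => n1 (hz.symm.trans (e ▸ same_orb w m c i)),
      fun i e => n2 (hz.symm.trans (e ▸ same_orb w m x₂ i)), fun e => ?_⟩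
    rcases hP z e hz' with h | h
    · exact n1 (hz.symm.trans h)
    · exact n2 (hz.symm.trans h)
  have kb := fun k : ℕ => key _ (hb k) (hγ _).1
  have kr := fun k : ℕ => key _ (hro k) (h1.orb hw k)
  obtain ⟨L, hL⟩ := sandwich (w := w) (m := m) hc.toOrb.1 hc.toOrb.2 h2.toOrb.1 h2.toOrb.2 P
    (β := fun k => γ (-k)) (fun i => by
      have h3 := (hγ (-((i : ℤ) + 1))).1.toOrb.1.1 0
      rw [zero_add, orb_zero] at h3
      have h4 : orb w m (γ (-((i : ℤ) + 1))) 1 = γ (-i) := by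
        rw [bi_orb hγ]; congr 1; push_cast; ring
      rw [h4] at h3
      have := h3.symm
      simpa using this)
    h1.toOrb.1 h1.toOrb.2 (by simpa [orb_zero] using hγ0.symm)
    (fun i j => (kb j).1 i) (fun i j => (kb j).2.1 i) (fun j => (kb j).2.2)
    (fun i j => (kr j).1 i) (fun i j => (kr j).2.1 i) (fun j => (kr j).2.2) hbtw
  obtain ⟨L', hL'⟩ := exists_lower h1.toOrb.2
  obtain ⟨u, hu, hus, hul⟩ := hl x₁ h1 (min L L')
  obtain ⟨n, rfl⟩ := bi_cover hw hi hγ hu (by rw [hγ0]; exact hus)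
  rcases le_total 0 n with hn | hn
  · have h5 := bi_orb hγ 0 n.toNat
    rw [zero_add, Int.toNat_of_nonneg hn, hγ0] at h5
    have := hL' n.toNat
    rw [h5] at this
    have := min_le_right L L'
    omega
  · have := hL (-n).toNat
    rw [Int.toNat_of_nonneg (by omega), neg_neg] at this
    have := min_le_left L L'
    omega

theorem common_anc (hw : Adm w) (hi : InjT w m) (hu : Trunk w m u) (hv : Trunk w m v)
    (h : Same w m u v) : ∃ c, Trunk w m c ∧ (∃ i, orb w m c i = u) ∧ ∃ j, orb w m c j = v := by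
  obtain ⟨n, hn | hn⟩ := h.comparable hw hi hu hv
  · exact ⟨u, hu, ⟨0, rfl⟩, n, hn⟩
  · exact ⟨v, hv, ⟨n, hn⟩, 0, rfl⟩

theorem hth_ne (h1 : Orb w m u) (h2 : Orb w m v) (hn : ¬ Same w m u v) :
    ∀ᶠ N : ℤ in atTop, hth (orb w m u) N ≠ hth (orb w m v) N := by
  filter_upwards [eventually_ge_atTop u.1, eventually_ge_atTop v.1] with N hN1 hN2 he
  have e1 := hth_spec h1.1 h1.2 (N := N) hN1
  have e2 := hth_spec h2.1 h2.2 (N := N) hN2
  exact hn ⟨_, _, e1.trans ((congrArg (Prod.mk N) he).trans e2.symm)⟩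

theorem order3 {c a b d : ℤ} (hac : a ≠ c) (hbc : b ≠ c) (hdc : d ≠ c) (hab : a ≠ b)
    (had : a ≠ d) (hbd : b ≠ d)
    (g12 : ¬ ((c < a ∧ a < b) ∨ (b < a ∧ a < c))) (g13 : ¬ ((c < a ∧ a < d) ∨ (d < a ∧ a < c)))
    (g21 : ¬ ((c < b ∧ b < a) ∨ (a < b ∧ b < c))) (g23 : ¬ ((c < b ∧ b < d) ∨ (d < b ∧ b < c)))
    (g31 : ¬ ((c < d ∧ d < a) ∨ (a < d ∧ d < c))) (g32 : ¬ ((c < d ∧ d < b) ∨ (b < d ∧ d < c))) :
    False := by
  rcases lt_or_gt_of_ne hac with h1 | h1 <;> rcases lt_or_gt_of_ne hbc with h2 | h2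
  · rcases lt_or_gt_of_ne hab with h3 | h3
    · exact g21 (Or.inr ⟨h3, h2⟩)
    · exact g12 (Or.inr ⟨h3, h1⟩)
  · rcases lt_or_gt_of_ne hdc with h4 | h4
    · rcases lt_or_gt_of_ne had with h5 | h5
      · exact g31 (Or.inr ⟨h5, h4⟩)
      · exact g13 (Or.inr ⟨h5, h1⟩)
    · rcases lt_or_gt_of_ne hbd with h5 | h5
      · exact g23 (Or.inl ⟨h2, h5⟩)
      · exact g32 (Or.inl ⟨h4, h5⟩)
  · rcases lt_or_gt_of_ne hdc with h4 | h4
    · rcases lt_or_gt_of_ne hbd with h5 | h5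
      · exact g32 (Or.inr ⟨h5, h4⟩)
      · exact g23 (Or.inr ⟨h5, h2⟩)
    · rcases lt_or_gt_of_ne had with h5 | h5
      · exact g13 (Or.inl ⟨h1, h5⟩)
      · exact g31 (Or.inl ⟨h4, h5⟩)
  · rcases lt_or_gt_of_ne hab with h3 | h3
    · exact g12 (Or.inl ⟨h1, h3⟩)
    · exact g21 (Or.inl ⟨h2, h3⟩)

/-- There are at most two nearest trunks. -/
theorem no_three (hw : Adm w) (hi : InjT w m) (hl : LeftUnb w m) {u₁ u₂ u₃ : V}
    (h1 : Nst w m u₁ v) (h2 : Nst w m u₂ v) (h3 : Nst w m u₃ v)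
    (h12 : ¬ Same w m u₁ u₂) (h13 : ¬ Same w m u₁ u₃) (h23 : ¬ Same w m u₂ u₃) : False := by
  -- data of a connecting walk
  have data : ∀ u, Nst w m u v → ∃ x y, Trunk w m x ∧ Trunk w m y ∧ Same w m x u ∧
      Same w m y v ∧ ∃ p : latt.Walk y x, ∀ z ∈ p.support, Trunk w m z →
        Same w m z v ∨ Same w m z u := by
    rintro u ⟨hu, hns, d, ⟨x, y, hx, hy, hxu, hyv, p, hp⟩, hmin⟩
    refine ⟨x, y, hx, hy, hxu, hyv, p.reverse, fun z hz hzT => ?_⟩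
    rw [SimpleGraph.Walk.support_reverse, List.mem_reverse] at hz
    by_cases hzv : Same w m z v
    · exact Or.inl hzv
    right
    have hd := hmin z (p.dropUntil z hz).length hzT hzv
      ⟨z, y, hzT, hy, Same.refl _ _ _, hyv, _, rfl⟩
    have hlen := congrArg SimpleGraph.Walk.length (p.take_spec hz)
    rw [SimpleGraph.Walk.length_append] at hlen
    have h0 : (p.takeUntil z hz).length = 0 := by omega
    have := SimpleGraph.Walk.eq_of_length_eq_zero h0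
    rwa [← this]
  obtain ⟨x₁, y₁, hx₁, hy₁, hxu₁, hyv₁, p₁, hp₁⟩ := data u₁ h1
  obtain ⟨x₂, y₂, hx₂, hy₂, hxu₂, hyv₂, p₂, hp₂⟩ := data u₂ h2
  obtain ⟨x₃, y₃, hx₃, hy₃, hxu₃, hyv₃, p₃, hp₃⟩ := data u₃ h3
  obtain ⟨c', hc', ⟨i', hi'⟩, ⟨j', hj'⟩⟩ := common_anc hw hi hy₁ hy₂ (hyv₁.trans hyv₂.symm)
  have hc'v : Same w m c' v := by
    have := same_orb w m c' i'
    rw [hi'] at this
    exact this.symm.trans hyv₁
  obtain ⟨c, hc, ⟨i, hic⟩, ⟨k₃, hk₃⟩⟩ := common_anc hw hi hc' hy₃ (hc'v.trans hyv₃.symm)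
  have hcv : Same w m c v := by
    have := same_orb w m c i
    rw [hic] at this
    exact this.symm.trans hc'v
  have hk₁ : orb w m c (i' + i) = y₁ := by rw [orb_add, hic, hi']
  have hk₂ : orb w m c (j' + i) = y₂ := by rw [orb_add, hic, hj']
  -- extended walks
  have ext : ∀ {x y u : V} (k : ℕ), orb w m c k = y → Same w m x u → ¬ Same w m u v →
      (p : latt.Walk y x) → (∀ z ∈ p.support, Trunk w m z → Same w m z v ∨ Same w m z u) →
      ∃ P : latt.Walk c x, ∀ z ∈ P.support, Trunk w m z → Same w m z c ∨ Same w m z x := by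
    intro x y u k hk hxu _ p hp
    obtain ⟨q, hq⟩ := exists_walk_seg hc.toOrb.1.1 k
    refine ⟨(q.copy (orb_zero w m c) hk).append p, fun z hz hzT => ?_⟩
    rw [SimpleGraph.Walk.mem_support_append_iff, SimpleGraph.Walk.support_copy] at hz
    rcases hz with hz | hz
    · obtain ⟨n, -, rfl⟩ := hq z hz
      exact Or.inl (same_orb w m c n)
    · rcases hp z hz hzT with h | h
      · exact Or.inl (h.trans hcv.symm)
      · exact Or.inr (h.trans hxu.symm)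
  obtain ⟨P₁, hP₁⟩ := ext _ hk₁ hxu₁ h1.2.1 p₁ hp₁
  obtain ⟨P₂, hP₂⟩ := ext _ hk₂ hxu₂ h2.2.1 p₂ hp₂
  obtain ⟨P₃, hP₃⟩ := ext _ hk₃ hxu₃ h3.2.1 p₃ hp₃
  have nc₁ : ¬ Same w m x₁ c := fun h => h1.2.1 (hxu₁.symm.trans (h.trans hcv))
  have nc₂ : ¬ Same w m x₂ c := fun h => h2.2.1 (hxu₂.symm.trans (h.trans hcv))
  have nc₃ : ¬ Same w m x₃ c := fun h => h3.2.1 (hxu₃.symm.trans (h.trans hcv))
  have n12 : ¬ Same w m x₁ x₂ := fun h => h12 (hxu₁.symm.trans (h.trans hxu₂))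
  have n13 : ¬ Same w m x₁ x₃ := fun h => h13 (hxu₁.symm.trans (h.trans hxu₃))
  have n23 : ¬ Same w m x₂ x₃ := fun h => h23 (hxu₂.symm.trans (h.trans hxu₃))
  have hne := (hth_ne hx₁.toOrb hc.toOrb nc₁).and ((hth_ne hx₂.toOrb hc.toOrb nc₂).and
    ((hth_ne hx₃.toOrb hc.toOrb nc₃).and ((hth_ne hx₁.toOrb hx₂.toOrb n12).and
    ((hth_ne hx₁.toOrb hx₃.toOrb n13).and (hth_ne hx₂.toOrb hx₃.toOrb n23)))))
  have f12 := mt (pair_false hw hi hl hc hx₁ hx₂ P₂ hP₂ nc₁ n12) not_false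
  have f13 := mt (pair_false hw hi hl hc hx₁ hx₃ P₃ hP₃ nc₁ n13) not_false
  have f21 := mt (pair_false hw hi hl hc hx₂ hx₁ P₁ hP₁ nc₂ (fun h => n12 h.symm)) not_false
  have f23 := mt (pair_false hw hi hl hc hx₂ hx₃ P₃ hP₃ nc₂ n23) not_false
  have f31 := mt (pair_false hw hi hl hc hx₃ hx₁ P₁ hP₁ nc₃ (fun h => n13 h.symm)) not_false
  have f32 := mt (pair_false hw hi hl hc hx₃ hx₂ P₂ hP₂ nc₃ (fun h => n23 h.symm)) not_false
  rw [not_frequently] at f12 f13 f21 f23 f31 f32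
  obtain ⟨N, ⟨a1, a2, a3, a4, a5, a6⟩, g12, g13, g21, g23, g31, g32⟩ :=
    (hne.and (f12.and (f13.and (f21.and (f23.and (f31.and f32)))))).exists
  exact order3 a1 a2 a3 a4 a5 a6 g12 g13 g21 g23 g31 g32

end Vale.Agent.P158
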