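import Vale.Agent.P158.Basic
import Mathlib.Data.ZMod.Basic
import Mathlib.Tactic.LinearCombination
import Mathlib.Tactic.Ring

/-! Planarity in a half plane: parity of horizontal edges below a point. -/

namespace Vale.Agent.P158

/-- Indicator that the step from `a` to `b` joins columns `i` and `i+1` at height at most `j`. -/
def hor (i j : ℤ) (a b : V) : ZMod 2 :=
  if a.2 = b.2 ∧ a.2 ≤ j ∧ ((a.1 = i ∧ b.1 = i + 1) ∨ (b.1 = i ∧ a.1 = i + 1)) then 1 else 0

/-- Indicator that the step from `a` to `b` joins `(i,j)` and `(i,j+1)`. -/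
def ver (i j : ℤ) (a b : V) : ZMod 2 :=
  if a.1 = i ∧ b.1 = i ∧ ((a.2 = j ∧ b.2 = j + 1) ∨ (b.2 = j ∧ a.2 = j + 1)) then 1 else 0

/-- Indicator of the half column below `(i,j)`. -/
def low (i j : ℤ) (a : V) : ZMod 2 := if a.1 = i ∧ a.2 ≤ j then 1 else 0

/-- Total parity of horizontal steps. -/
def par (i j : ℤ) {x y : V} (p : latt.Walk x y) : ZMod 2 :=
  (p.darts.map fun d => hor i j d.fst d.snd).sum

/-- Total parity of vertical steps. -/
def pver (i j : ℤ) {x y : V} (p : latt.Walk x y) : ZMod 2 :=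
  (p.darts.map fun d => ver i j d.fst d.snd).sum

theorem two_zero (a : ZMod 2) : a + a = 0 := by
  revert a; decide

theorem adj_cases {a b : V} (h : latt.Adj a b) :
    (b.1 = a.1 + 1 ∧ b.2 = a.2) ∨ (b.1 = a.1 - 1 ∧ b.2 = a.2) ∨
    (b.1 = a.1 ∧ b.2 = a.2 + 1) ∨ (b.1 = a.1 ∧ b.2 = a.2 - 1) := by
  have h' : |a.1 - b.1| + |a.2 - b.2| = 1 := h
  rcases abs_cases (a.1 - b.1) with h1 | h1 <;> rcases abs_cases (a.2 - b.2) with h2 | h2 <;>
    omega

theorem dart_id (i j : ℤ) {a b : V} (h : latt.Adj a b) :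
    hor i j a b + hor (i - 1) j a b + ver i j a b = low i j a + low i j b := by
  obtain ⟨a1, a2⟩ := a
  obtain ⟨b1, b2⟩ := b
  have hc := adj_cases h
  simp only at hc
  unfold hor ver low
  simp only
  rcases hc with ⟨h1, h2⟩ | ⟨h1, h2⟩ | ⟨h1, h2⟩ | ⟨h1, h2⟩ <;> subst h1 <;> subst h2 <;>
    split_ifs <;> first | rfl | (exfalso; omega)

theorem par_id (i j : ℤ) {x y : V} (p : latt.Walk x y) :
    par i j p + par (i - 1) j p + pver i j p = low i j x + low i j y := by
  induction p with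
  | nil => simp [par, pver, two_zero]
  | @cons a b c h p ih =>
    have hd := dart_id i j h
    simp only [par, pver, SimpleGraph.Walk.darts_cons, List.map_cons, List.sum_cons] at ih ⊢
    have e : low i j a + low i j c = (low i j a + low i j b) + (low i j b + low i j c) := by
      have := two_zero (low i j b)
      linear_combination -this
    rw [e, ← hd, ← ih]
    ring

theorem pver_eq_zero {i j : ℤ} {x y : V} (p : latt.Walk x y) (h : ((i, j) : V) ∉ p.support) :
    pver i j p = 0 := by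
  unfold pver
  refine List.sum_eq_zero fun a ha => ?_
  obtain ⟨d, hd, rfl⟩ := List.mem_map.1 ha
  unfold ver
  rw [if_neg]
  rintro ⟨h1, h2, ⟨h3, h4⟩ | ⟨h3, h4⟩⟩
  · exact h (by
      have := p.dart_fst_mem_support_of_mem_darts hd
      rwa [show d.fst = (i, j) from Prod.ext h1 h3] at this)
  · exact h (by
      have := p.dart_snd_mem_support_of_mem_darts hd
      rwa [show d.snd = (i, j) from Prod.ext h2 h3] at this)

theorem par_vert {i j : ℤ} {x y : V} (p : latt.Walk x y) (h : ((i, j) : V) ∉ p.support) :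
    par i j p = par i (j - 1) p := by
  unfold par
  congr 1
  refine List.map_congr_left fun d hd => ?_
  have h1 : d.fst ≠ (i, j) := fun e => h (e ▸ p.dart_fst_mem_support_of_mem_darts hd)
  have h2 : d.snd ≠ (i, j) := fun e => h (e ▸ p.dart_snd_mem_support_of_mem_darts hd)
  have h1' : ¬ (d.fst.1 = i ∧ d.fst.2 = j) := fun e => h1 (Prod.ext e.1 e.2)
  have h2' : ¬ (d.snd.1 = i ∧ d.snd.2 = j) := fun e => h2 (Prod.ext e.1 e.2)
  unfold hor
  refine if_congr ?_ rfl rfl
  constructor
  · rintro ⟨e1, e2, e3⟩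
    exact ⟨e1, by rcases e3 with e3 | e3 <;> omega, e3⟩
  · rintro ⟨e1, e2, e3⟩
    exact ⟨e1, by omega, e3⟩

theorem par_col {N j : ℤ} {x y : V} (p : latt.Walk x y) (h : ∀ z ∈ p.support, z ∈ HN N) :
    par N j p = 0 := by
  unfold par
  refine List.sum_eq_zero fun a ha => ?_
  obtain ⟨d, hd, rfl⟩ := List.mem_map.1 ha
  have h1 : d.fst.1 ≤ N := h _ (p.dart_fst_mem_support_of_mem_darts hd)
  have h2 : d.snd.1 ≤ N := h _ (p.dart_snd_mem_support_of_mem_darts hd)
  unfold hor
  rw [if_neg]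
  rintro ⟨-, -, h3 | h3⟩ <;> omega

/-- The parity function of a walk `A` in the half plane from `(N,a)` to `(N,a')`. -/
def wpar (N a a' : ℤ) {x y : V} (A : latt.Walk x y) (v : V) : ZMod 2 :=
  par v.1 v.2 A + if v.1 = N then
    ((if a ≤ v.2 then 1 else 0) + (if a' ≤ v.2 then 1 else 0)) else 0

theorem low_col (N a i j : ℤ) :
    low i j ((N, a) : V) = if N = i ∧ a ≤ j then 1 else 0 := rfl

theorem wpar_right {N a a' : ℤ} (A : latt.Walk ((N, a) : V) (N, a'))
    (hA : ∀ z ∈ A.support, z ∈ HN N) {i j : ℤ} (hi : i ≤ N) (h : ((i, j) : V) ∉ A.support) :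
    wpar N a a' A (i, j) = wpar N a a' A (i - 1, j) := by
  have h1 := par_id i j A
  rw [pver_eq_zero A h, add_zero, low_col, low_col] at h1
  unfold wpar
  simp only
  rcases eq_or_lt_of_le hi with rfl | hlt
  · rw [par_col A hA] at h1 ⊢
    rw [zero_add] at h1 ⊢
    rw [h1, if_pos rfl, if_neg (by omega : ¬ i - 1 = i), add_zero]
    simp
  · have hne : ¬ i = N := hlt.ne
    have hne' : ¬ N = i := fun e => hne e.symm
    rw [if_neg hne, if_neg (by omega : ¬ i - 1 = N), add_zero, add_zero]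
    simp only [hne', false_and, if_false, add_zero] at h1
    have := two_zero (par (i - 1) j A)
    linear_combination h1 - this

theorem wpar_up {N a a' : ℤ} (A : latt.Walk ((N, a) : V) (N, a'))
    {i j : ℤ} (h : ((i, j) : V) ∉ A.support) :
    wpar N a a' A (i, j) = wpar N a a' A (i, j - 1) := by
  unfold wpar
  simp only
  rw [par_vert A h]
  congr 1
  by_cases hi : i = N
  · subst hi
    have h1 : j ≠ a := fun e => h (e ▸ A.start_mem_support)
    have h2 : j ≠ a' := fun e => h (e ▸ A.end_mem_support)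
    rw [if_pos rfl, if_pos rfl]
    congr 1
    · exact if_congr (by omega) rfl rfl
    · exact if_congr (by omega) rfl rfl
  · rw [if_neg hi, if_neg hi]

theorem wpar_adj {N a a' : ℤ} (A : latt.Walk ((N, a) : V) (N, a'))
    (hA : ∀ z ∈ A.support, z ∈ HN N) {u v : V} (huv : latt.Adj u v) (hu : u ∈ HN N)
    (hv : v ∈ HN N) (hu' : u ∉ A.support) (hv' : v ∉ A.support) :
    wpar N a a' A u = wpar N a a' A v := by
  obtain ⟨u1, u2⟩ := u
  obtain ⟨v1, v2⟩ := v
  have hc := adj_cases huv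
  simp only at hc
  have hu1 : u1 ≤ N := hu
  have hv1 : v1 ≤ N := hv
  rcases hc with ⟨h1, h2⟩ | ⟨h1, h2⟩ | ⟨h1, h2⟩ | ⟨h1, h2⟩ <;> subst h1 <;> subst h2
  · have := wpar_right A hA hv1 hv'
    rw [this, add_sub_cancel_right]
  · exact wpar_right A hA hu1 hu'
  · have := wpar_up A hv'
    rw [this, add_sub_cancel_right]
  · exact wpar_up A hu'

theorem wpar_walk {N a a' : ℤ} (A : latt.Walk ((N, a) : V) (N, a'))
    (hA : ∀ z ∈ A.support, z ∈ HN N) {u v : V} (B : latt.Walk u v)
    (hB : ∀ z ∈ B.support, z ∈ HN N) (hAB : ∀ z ∈ A.support, z ∉ B.support) :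
    wpar N a a' A u = wpar N a a' A v := by
  induction B with
  | nil => rfl
  | @cons x y z h p ih =>
    have hx := hB x (by simp)
    have hy := hB y (by simp)
    rw [wpar_adj A hA h hx hy (fun hh => hAB _ hh (by simp)) (fun hh => hAB _ hh (by simp))]
    exact ih (fun z hz => hB z (by simp [hz])) (fun z hz hz' => hAB z hz (by simp [hz']))

theorem crossing {N a₁ a₂ a₃ a₄ : ℤ} (h12 : a₁ < a₂) (h23 : a₂ < a₃) (h34 : a₃ < a₄)
    (p : latt.Walk ((N, a₁) : V) (N, a₃)) (q : latt.Walk ((N, a₂) : V) (N, a₄))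
    (hp : ∀ z ∈ p.support, z ∈ HN N) (hq : ∀ z ∈ q.support, z ∈ HN N) :
    ∃ z, z ∈ p.support ∧ z ∈ q.support := by
  by_contra hcon
  push Not at hcon
  have h := wpar_walk p hp q hq hcon
  unfold wpar at h
  simp only [par_col p hp, if_true, zero_add] at h
  rw [if_pos h12.le, if_neg (by omega), if_pos (by omega), if_pos (by omega)] at h
  revert h; decide

theorem trapped {N a a' h : ℤ} (h1 : a < h) (h2 : h < a')
    (A : latt.Walk ((N, a) : V) (N, a')) (hA : ∀ z ∈ A.support, z ∈ HN N)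
    {p : V} (B : latt.Walk ((N, h) : V) p) (hB : ∀ z ∈ B.support, z ∈ HN N)
    (hAB : ∀ z ∈ A.support, z ∉ B.support) :
    ∃ z ∈ A.support, z.1 ≤ p.1 := by
  have hw := wpar_walk A hA B hB hAB
  by_contra hcon
  push Not at hcon
  have hpN : p.1 < N := hcon (N, a) A.start_mem_support
  unfold wpar at hw
  simp only [par_col A hA, if_true, zero_add] at hw
  rw [if_pos h1.le, if_neg (by omega), if_neg hpN.ne, add_zero, add_zero] at hw
  have : par p.1 p.2 A = 0 := by
    unfold par
    refine List.sum_eq_zero fun c hc => ?_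
    obtain ⟨d, hd, rfl⟩ := List.mem_map.1 hc
    have e1 := hcon _ (A.dart_fst_mem_support_of_mem_darts hd)
    have e2 := hcon _ (A.dart_snd_mem_support_of_mem_darts hd)
    unfold hor
    rw [if_neg]
    rintro ⟨-, -, h3 | h3⟩ <;> omega
  rw [this] at hw
  revert hw; decide

end Vale.Agent.P158
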