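import Vale.Agent.P158.Det2
import Mathlib.Combinatorics.SimpleGraph.Walk.Maps

/-! Translation equivariance. -/

namespace Vale.Agent.P158

open Filter

variable {w : V → V → ℝ} {m : ℝ} {u v x y z a : V}

/-- Translated weight function. -/
def sh (u : V) (w : V → V → ℝ) (x y : V) : ℝ := w (x + u) (y + u)

theorem adj_add (h : latt.Adj x y) (u : V) : latt.Adj (x + u) (y + u) := by
  have h' : |x.1 - y.1| + |x.2 - y.2| = 1 := h
  change |(x + u).1 - (y + u).1| + |(x + u).2 - (y + u).2| = 1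
  simpa using h'

theorem adj_add_iff (u : V) : latt.Adj (x + u) (y + u) ↔ latt.Adj x y := by
  refine ⟨fun h => ?_, fun h => adj_add h u⟩
  have := adj_add h (-u)
  simpa using this

/-- Translation as a graph homomorphism. -/
def shHom (u : V) : latt →g latt where
  toFun x := x + u
  map_rel' h := adj_add h u

theorem Adm.sh (hw : Adm w) (u : V) : Adm (sh u w) :=
  ⟨fun _ _ => hw.symm _ _, fun _ _ h => hw.pos _ _ (adj_add h u)⟩

theorem sh_sh (u : V) (w : V → V → ℝ) : sh (-u) (sh u w) = w := by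
  funext x y
  simp [sh]

theorem ww_map (u : V) (w : V → V → ℝ) (p : latt.Walk x y) :
    ww w (p.map (shHom u)) = ww (sh u w) p := by
  induction p with
  | nil => rfl
  | cons h p ih =>
    rw [SimpleGraph.Walk.map_cons, ww_cons, ww_cons, ih]
    rfl

/-- Translated set. -/
def trs (u : V) (S : Set V) : Set V := {z | z - u ∈ S}

theorem Conn.sh {S : Set V} (h : Conn S x y) (u : V) : Conn (trs u S) (x + u) (y + u) := by
  obtain ⟨p, hp⟩ := h
  refine ⟨p.map (shHom u), fun z hz0 => ?_⟩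
  have hz : z ∈ (SimpleGraph.Walk.map (shHom u) p).support := hz0
  rw [SimpleGraph.Walk.support_map, List.mem_map] at hz
  obtain ⟨b, hb, rfl⟩ := hz
  change b + u - u ∈ S
  rw [add_sub_cancel_right]
  exact hp b hb

theorem trs_trs (u : V) (S : Set V) : trs (-u) (trs u S) = S := by
  ext z; simp [trs]

theorem PT_sh_le (hw : Adm w) {S : Set V} (h : Conn S x y) (u : V) :
    PT w (trs u S) (x + u) (y + u) ≤ PT (sh u w) S x y := by
  refine le_PT h fun p hp => ?_
  rw [← ww_map]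
  refine PT_le hw _ fun z hz0 => ?_
  have hz : z ∈ (SimpleGraph.Walk.map (shHom u) p).support := hz0
  rw [SimpleGraph.Walk.support_map, List.mem_map] at hz
  obtain ⟨b, hb, rfl⟩ := hz
  change b + u - u ∈ S
  rw [add_sub_cancel_right]
  exact hp b hb

theorem PT_sh (hw : Adm w) {S : Set V} (h : Conn S x y) (u : V) :
    PT (sh u w) S x y = PT w (trs u S) (x + u) (y + u) := by
  refine le_antisymm ?_ (PT_sh_le hw h u)
  have := PT_sh_le (hw.sh u) (h.sh u) (-u)
  rwa [trs_trs, sh_sh, add_neg_cancel_right, add_neg_cancel_right] at this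

theorem trs_HN (u : V) (N : ℤ) : trs u (HN N) = HN (N + u.1) := by
  ext z
  change (z - u).1 ≤ N ↔ z.1 ≤ N + u.1
  rw [Prod.fst_sub]
  omega

theorem T_sh (hw : Adm w) (u x y : V) : T (sh u w) x y = T w (x + u) (y + u) := by
  unfold T
  rw [PT_sh hw (conn_univ x y) u]
  rfl

theorem g_sh (hw : Adm w) (u : V) {N : ℤ} {x y : V} (hx : x ∈ HN N) (hy : y ∈ HN N) (j : ℤ) :
    g (sh u w) N x y j = g w (N + u.1) (x + u) (y + u) (j + u.2) := by
  unfold g
  rw [PT_sh hw (conn_HN hx (mem_HN_col N j)) u, PT_sh hw (conn_HN hy (mem_HN_col N j)) u,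
    trs_HN]
  rfl

theorem J_sh (u : V) (m : ℝ) (x : V) (k : ℕ) (N j : ℤ) :
    J m (x + u) k (N + u.1) (j + u.2) ↔ J m x k N j := by
  unfold J
  rw [Prod.fst_add, Prod.snd_add, add_sub_add_right_eq_sub, add_sub_add_right_eq_sub]

theorem eventually_add_iff (c : ℤ) (P : ℤ → Prop) :
    (∀ᶠ N in atTop, P (N + c)) ↔ ∀ᶠ N in atTop, P N := by
  rw [eventually_atTop, eventually_atTop]
  constructor
  · rintro ⟨b, hb⟩
    exact ⟨b + c, fun n hn => by simpa using hb (n - c) (by omega)⟩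
  · rintro ⟨b, hb⟩
    exact ⟨b - c, fun n hn => hb _ (by omega)⟩

theorem frequently_add_iff (c : ℤ) (P : ℤ → Prop) :
    (∃ᶠ N in atTop, P (N + c)) ↔ ∃ᶠ N in atTop, P N := by
  unfold Filter.Frequently
  rw [not_iff_not]
  exact eventually_add_iff c fun N => ¬ P N

theorem Step_sh (hw : Adm w) (u : V) (m : ℝ) (z a : V) :
    Step (sh u w) m z a ↔ Step w m (z + u) (a + u) := by
  have hz : ∀ᶠ N : ℤ in atTop, z ∈ HN N ∧ a ∈ HN N :=
    (eventually_ge_atTop z.1).and (eventually_ge_atTop a.1)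
  unfold Step
  refine and_congr (adj_add_iff u).symm (and_congr ?_ ?_)
  · refine forall_congr' fun n => exists_congr fun k => ?_
    rw [← frequently_add_iff u.1 (fun N => ∀ j : ℤ, J m (z + u) k N j →
      w (z + u) (a + u) - 1 / ((n : ℝ) + 1) ≤ g w N (z + u) (a + u) j)]
    refine Filter.frequently_congr ?_
    filter_upwards [hz] with N hN
    constructor
    · intro h j hj
      have h1 := h (j - u.2) (by
        rw [← J_sh u]; simpa using hj)
      rw [g_sh hw u hN.1 hN.2] at h1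
      simpa [sh] using h1
    · intro h j hj
      rw [g_sh hw u hN.1 hN.2]
      exact h _ ((J_sh u m z k N j).2 hj)
  · refine forall_congr' fun n => forall_congr' fun k => ?_
    rw [← eventually_add_iff u.1 (fun N => ∃ j : ℤ, J m (z + u) k N j ∧
      w (z + u) (a + u) - 1 / ((n : ℝ) + 1) ≤ g w N (z + u) (a + u) j)]
    refine Filter.eventually_congr ?_
    filter_upwards [hz] with N hN
    constructor
    · rintro ⟨j, hj, hj'⟩
      rw [g_sh hw u hN.1 hN.2] at hj'
      exact ⟨j + u.2, (J_sh u m z k N j).2 hj, hj'⟩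
    · rintro ⟨j, hj, hj'⟩
      refine ⟨j - u.2, ?_, ?_⟩
      · rw [← J_sh u]; simpa using hj
      · rw [g_sh hw u hN.1 hN.2]
        simpa [sh] using hj'

theorem phi_sh (hw : Adm w) (u : V) (m : ℝ) (z : V) :
    phi (sh u w) m z + u = phi w m (z + u) := by
  have e1 : ((z.1 + 1, z.2) : V) + u = ((z + u).1 + 1, (z + u).2) := by
    ext <;> simp; ring
  have e2 : ((z.1 - 1, z.2) : V) + u = ((z + u).1 - 1, (z + u).2) := by
    ext <;> simp; ring
  have e3 : ((z.1, z.2 + 1) : V) + u = ((z + u).1, (z + u).2 + 1) := by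
    ext <;> simp; ring
  have e4 : ((z.1, z.2 - 1) : V) + u = ((z + u).1, (z + u).2 - 1) := by
    ext <;> simp; ring
  have s1 := Step_sh hw u m z (z.1 + 1, z.2)
  have s2 := Step_sh hw u m z (z.1 - 1, z.2)
  have s3 := Step_sh hw u m z (z.1, z.2 + 1)
  have s4 := Step_sh hw u m z (z.1, z.2 - 1)
  rw [e1] at s1
  rw [e2] at s2
  rw [e3] at s3
  rw [e4] at s4
  unfold phi
  by_cases h1 : Step w m (z + u) ((z + u).1 + 1, (z + u).2)
  · rw [if_pos (s1.2 h1), if_pos h1]; exact e1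
  rw [if_neg (mt s1.1 h1), if_neg h1]
  by_cases h2 : Step w m (z + u) ((z + u).1 - 1, (z + u).2)
  · rw [if_pos (s2.2 h2), if_pos h2]; exact e2
  rw [if_neg (mt s2.1 h2), if_neg h2]
  by_cases h3 : Step w m (z + u) ((z + u).1, (z + u).2 + 1)
  · rw [if_pos (s3.2 h3), if_pos h3]; exact e3
  rw [if_neg (mt s3.1 h3), if_neg h3]
  by_cases h4 : Step w m (z + u) ((z + u).1, (z + u).2 - 1)
  · rw [if_pos (s4.2 h4), if_pos h4]; exact e4
  rw [if_neg (mt s4.1 h4), if_neg h4]

theorem orb_sh (hw : Adm w) (u : V) (m : ℝ) (z : V) (n : ℕ) :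
    orb (sh u w) m z n + u = orb w m (z + u) n := by
  induction n with
  | zero => rfl
  | succ n ih => rw [orb_succ, orb_succ, ← ih, phi_sh hw]

theorem IsRay_sh (hw : Adm w) (u : V) (r : ℕ → V) :
    IsRay (sh u w) r ↔ IsRay w (fun i => r i + u) := by
  unfold IsRay
  refine and_congr (forall_congr' fun i => (adj_add_iff u).symm) (forall_congr' fun n => ?_)
  rw [T_sh hw]
  rfl

theorem Slope.add {r : ℕ → V} (hs : Slope m r) (u : V) : Slope m (fun i => r i + u) := by
  intro q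
  obtain ⟨M, hM⟩ := exists_nat_ge
    (2 * ((q : ℝ) * (|(u.2 : ℝ)| + |m| * |(u.1 : ℝ)|) + |(u.1 : ℝ)|) + q)
  filter_upwards [hs (2 * q), hs M] with i h1 h2
  have h1' := h1.1
  have h2' := h2.2
  simp only [Prod.fst_add, Prod.snd_add]
  push_cast at h1' ⊢
  have hq : (0 : ℝ) ≤ q := Nat.cast_nonneg q
  have hu := neg_abs_le (u.1 : ℝ)
  have hu' := abs_nonneg (u.1 : ℝ)
  have h0 : (0 : ℝ) ≤ (q : ℝ) * (|(u.2 : ℝ)| + |m| * |(u.1 : ℝ)|) := by positivity
  constructor
  · have h3 : |((r i).2 : ℝ) + (u.2 : ℝ) - m * (((r i).1 : ℝ) + (u.1 : ℝ))| ≤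
        |((r i).2 : ℝ) - m * ((r i).1 : ℝ)| + (|(u.2 : ℝ)| + |m| * |(u.1 : ℝ)|) := by
      have e : ((r i).2 : ℝ) + (u.2 : ℝ) - m * (((r i).1 : ℝ) + (u.1 : ℝ)) =
        (((r i).2 : ℝ) - m * ((r i).1 : ℝ)) + ((u.2 : ℝ) + -(m * (u.1 : ℝ))) := by ring
      rw [e]
      refine (abs_add_le _ _).trans (add_le_add le_rfl ?_)
      refine (abs_add_le _ _).trans ?_
      rw [abs_neg, abs_mul]
    have h4 := mul_le_mul_of_nonneg_left h3 hq
    have h5 : (q : ℝ) * (|((r i).2 : ℝ) - m * ((r i).1 : ℝ)| +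
        (|(u.2 : ℝ)| + |m| * |(u.1 : ℝ)|)) = (q : ℝ) * |((r i).2 : ℝ) - m * ((r i).1 : ℝ)| +
        (q : ℝ) * (|(u.2 : ℝ)| + |m| * |(u.1 : ℝ)|) := by ring
    rw [h5] at h4
    linarith
  · linarith

theorem Slope_add_iff {r : ℕ → V} (u : V) : Slope m (fun i => r i + u) ↔ Slope m r := by
  refine ⟨fun h => ?_, fun h => h.add u⟩
  have := h.add (-u)
  simpa using this

theorem Orb_sh (hw : Adm w) (u : V) (m : ℝ) (z : V) :
    Orb (sh u w) m z ↔ Orb w m (z + u) := by
  unfold Orb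
  have e : orb w m (z + u) = fun i => orb (sh u w) m z i + u :=
    funext fun i => (orb_sh hw u m z i).symm
  rw [IsRay_sh hw, e, Slope_add_iff]

theorem exists_add_iff (u : V) (P : V → Prop) : (∃ x, P (x + u)) ↔ ∃ x, P x :=
  ⟨fun ⟨x, hx⟩ => ⟨x + u, hx⟩, fun ⟨x, hx⟩ => ⟨x - u, by simpa using hx⟩⟩

theorem forall_add_iff (u : V) (P : V → Prop) : (∀ x, P (x + u)) ↔ ∀ x, P x :=
  ⟨fun h x => by simpa using h (x - u), fun h x => h (x + u)⟩

theorem Trunk_sh (hw : Adm w) (u : V) (m : ℝ) (v : V) :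
    Trunk (sh u w) m v ↔ Trunk w m (v + u) := by
  unfold Trunk
  refine forall_congr' fun n => ?_
  rw [← exists_add_iff u (fun x => orb w m x n = v + u ∧ Orb w m x)]
  refine exists_congr fun x => and_congr ?_ (Orb_sh hw u m x)
  rw [← orb_sh hw, add_left_inj]

theorem Same_sh (hw : Adm w) (u : V) (m : ℝ) (x y : V) :
    Same (sh u w) m x y ↔ Same w m (x + u) (y + u) := by
  unfold Same
  refine exists_congr fun n => exists_congr fun k => ?_
  rw [← orb_sh hw, ← orb_sh hw, add_left_inj]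

theorem bus_sh (hw : Adm w) (u : V) (r : ℕ → V) (x : V) :
    bus (sh u w) r x = bus w (fun i => r i + u) (x + u) := by
  unfold bus
  simp only [T_sh hw]

theorem Reg_sh (hw : Adm w) (u : V) (m : ℝ) (x v : V) :
    Reg (sh u w) m x v = Reg w m (x + u) (v + u) := by
  unfold Reg
  have e : orb w m (v + u) = fun i => orb (sh u w) m v i + u :=
    funext fun i => (orb_sh hw u m v i).symm
  rw [T_sh hw, bus_sh hw, e]

theorem walk_len_sh (u : V) (x y : V) (d : ℕ) :
    (∃ p : latt.Walk (x + u) (y + u), p.length = d) ↔ ∃ p : latt.Walk x y, p.length = d := by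
  constructor
  · rintro ⟨p, hp⟩
    refine ⟨(p.map (shHom (-u))).copy (by simp [shHom]) (by simp [shHom]), ?_⟩
    rw [SimpleGraph.Walk.length_copy, SimpleGraph.Walk.length_map, hp]
  · rintro ⟨p, hp⟩
    exact ⟨p.map (shHom u), (SimpleGraph.Walk.length_map _ _).trans hp⟩

theorem Near_sh (hw : Adm w) (u : V) (m : ℝ) (d : ℕ) (x v : V) :
    Near (sh u w) m d x v ↔ Near w m d (x + u) (v + u) := by
  unfold Near
  rw [← exists_add_iff u (fun a => ∃ y, Trunk w m a ∧ Trunk w m y ∧ Same w m a (x + u) ∧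
    Same w m y (v + u) ∧ ∃ p : latt.Walk a y, p.length = d)]
  refine exists_congr fun a => ?_
  rw [← exists_add_iff u (fun y => Trunk w m (a + u) ∧ Trunk w m y ∧
    Same w m (a + u) (x + u) ∧ Same w m y (v + u) ∧ ∃ p : latt.Walk (a + u) y, p.length = d)]
  refine exists_congr fun b => ?_
  rw [Trunk_sh hw, Trunk_sh hw, Same_sh hw, Same_sh hw, walk_len_sh]

theorem Nst_sh (hw : Adm w) (u : V) (m : ℝ) (x v : V) :
    Nst (sh u w) m x v ↔ Nst w m (x + u) (v + u) := by
  unfold Nst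
  rw [Trunk_sh hw, Same_sh hw]
  refine and_congr Iff.rfl (and_congr Iff.rfl (exists_congr fun d =>
    and_congr (Near_sh hw u m d x v) ?_))
  rw [← forall_add_iff u (fun u' => ∀ d', Trunk w m u' → ¬ Same w m u' (v + u) →
    Near w m d' u' (v + u) → d ≤ d')]
  refine forall_congr' fun u' => forall_congr' fun d' => ?_
  rw [Trunk_sh hw, Same_sh hw, Near_sh hw]

theorem Aev_sh (hw : Adm w) (u : V) (m : ℝ) (n : ℕ) (v : V) :
    Aev (sh u w) m n v ↔ Aev w m n (v + u) := by
  unfold Aev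
  rw [← exists_add_iff u (fun x => Nst w m x (v + u) ∧ ∀ y, Trunk w m y → Same w m y x →
    1 / ((n : ℝ) + 1) < Reg w m y (v + u))]
  refine exists_congr fun x => and_congr (Nst_sh hw u m x v) ?_
  rw [← forall_add_iff u (fun y => Trunk w m y → Same w m y (x + u) →
    1 / ((n : ℝ) + 1) < Reg w m y (v + u))]
  refine forall_congr' fun y => ?_
  rw [Trunk_sh hw, Same_sh hw, Reg_sh hw]

end Vale.Agent.P158
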