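import Vale.Agent.P158.Basic
import Mathlib.Order.Filter.AtTopBot.Archimedean

/-! Two different steps from the same vertex: at most one value of an edge weight. -/

namespace Vale.Agent.P158

open Filter

/-- A walk that avoids `z` has the same weight for weight functions that agree off the
edges at `z`. -/
theorem ww_congr_of_avoid {w₀ w₁ : V → V → ℝ} {z : V}
    (heq : ∀ x y, x ≠ z → y ≠ z → w₀ x y = w₁ x y) {x y : V} (p : latt.Walk x y)
    (hz : z ∉ p.support) : ww w₀ p = ww w₁ p := by
  induction p with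
  | nil => rfl
  | cons h p ih =>
    rw [SimpleGraph.Walk.support_cons, List.mem_cons, not_or] at hz
    rw [ww_cons, ww_cons, ih hz.2, heq _ _ (fun h => hz.1 h.symm)
      (fun h => hz.2 (h ▸ p.start_mem_support))]

theorem tie {w₀ w₁ : V → V → ℝ} {m : ℝ} (h0 : Adm w₀) (h1 : Adm w₁) {z a a' : V}
    (hlt : w₀ z a < w₁ z a) (heq : ∀ x y, s(x, y) ≠ s(z, a) → w₀ x y = w₁ x y)
    (haa : a ≠ a') (hS0 : Step w₀ m z a') (hS1 : Step w₁ m z a) : False := by
  obtain ⟨hadj', -, hS0⟩ := hS0
  obtain ⟨hadj, hS1, -⟩ := hS1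
  have ht' : w₀ z a' = w₁ z a' := by
    apply heq
    intro h
    rw [Sym2.eq_iff] at h
    rcases h with ⟨-, h⟩ | ⟨h, h'⟩
    · exact haa h.symm
    · rw [h] at hadj; exact latt.loopless.irrefl _ hadj
  have hpos : 0 < w₀ z a' := h0.pos _ _ hadj'
  have hle : ∀ x y, w₀ x y ≤ w₁ x y := by
    intro x y
    by_cases hxy : s(x, y) = s(z, a)
    · rw [Sym2.eq_iff] at hxy
      rcases hxy with ⟨rfl, rfl⟩ | ⟨rfl, rfl⟩
      · exact hlt.le
      · rw [h0.symm, h1.symm x y]; exact hlt.le
    · exact (heq x y hxy).le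
  obtain ⟨n, hn⟩ := exists_nat_one_div_lt
    (lt_min (half_pos (sub_pos.2 hlt)) (half_pos hpos))
  set ε : ℝ := 1 / ((n : ℝ) + 1) with hε
  have hε0 : 0 < ε := by positivity
  have hε1 : 2 * ε < w₁ z a - w₀ z a := by
    have := (lt_min_iff.1 hn).1; linarith
  have hε2 : 2 * ε < w₀ z a' := by
    have := (lt_min_iff.1 hn).2; linarith
  obtain ⟨k, hk⟩ := hS1 n
  have hk' := hS0 n k
  obtain ⟨N, hN1, hN2, hN3⟩ := (hk.and_eventually
    (hk'.and (eventually_ge_atTop (max z.1 (max a.1 a'.1))))).exists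
  obtain ⟨j, hj, hj'⟩ := hN2
  have hj1 := hN1 j hj
  have hzN : z ∈ HN N := le_trans (le_max_left _ _) hN3
  have haN : a ∈ HN N := le_trans (le_trans (le_max_left _ _) (le_max_right _ _)) hN3
  have haN' : a' ∈ HN N := le_trans (le_trans (le_max_right _ _) (le_max_right _ _)) hN3
  have hvN := mem_HN_col N j
  set v : V := (N, j) with hv
  have e1 : w₁ z a - ε ≤ PT w₁ (HN N) z v - PT w₁ (HN N) a v := hj1
  have e2 : w₀ z a' - ε ≤ PT w₀ (HN N) z v - PT w₀ (HN N) a' v := hj'
  have e3 : PT w₀ (HN N) a v ≤ PT w₁ (HN N) a v :=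
    PT_mono_weight h0 (fun x y _ => hle x y) (conn_HN haN hvN)
  have e4 : PT w₀ (HN N) z v ≤ w₀ z a + PT w₀ (HN N) a v := by
    have := PT_triangle h0 (conn_HN hzN haN) (conn_HN haN hvN)
    have h' := PT_adj_le (S := HN N) h0 hadj hzN haN
    linarith
  have e5 : min (PT w₀ (HN N) z v) (PT w₁ (HN N) z v - w₀ z a') ≤ PT w₀ (HN N) a' v := by
    refine le_PT (conn_HN haN' hvN) fun q hq => ?_
    by_cases hzq : z ∈ q.support
    · refine (min_le_left _ _).trans ?_
      have hq2 : ∀ u ∈ (q.dropUntil z hzq).support, u ∈ HN N := fun u hu =>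
        hq u (q.support_dropUntil_subset_support hzq hu)
      have := PT_le h0 (q.dropUntil z hzq) hq2
      refine this.trans ?_
      have hspec := congrArg (ww w₀) (q.take_spec hzq)
      rw [ww_append] at hspec
      have := ww_nonneg h0 (q.takeUntil z hzq)
      linarith
    · refine (min_le_right _ _).trans ?_
      have hcong : ww w₀ q = ww w₁ q := by
        refine ww_congr_of_avoid (z := z) (fun x y hx hy => heq x y ?_) q hzq
        intro h
        rw [Sym2.eq_iff] at h
        rcases h with ⟨h, -⟩ | ⟨-, h⟩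
        · exact hx h
        · exact hy h
      have := PT_le (S := HN N) h1 (SimpleGraph.Walk.cons hadj' q) fun u hu => by
        rw [SimpleGraph.Walk.support_cons, List.mem_cons] at hu
        rcases hu with rfl | hu
        · exact hzN
        · exact hq u hu
      rw [ww_cons, ← ht', ← hcong] at this
      linarith
  rcases min_le_iff.1 e5 with h | h
  · linarith
  · linarith

end Vale.Agent.P158
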