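import Vale.Agent.P158.Meas
import Vale.Agent.P158.Shift
import Vale.Agent.P158.Tie
import Mathlib.Probability.ProductMeasure
import Mathlib.MeasureTheory.Measure.Prod
import Mathlib.MeasureTheory.Measure.Typeclasses.NullSingletonClass

/-! The product measure: invariance, resampling, mass transport. -/

namespace Vale.Agent.P158

open Filter MeasureTheory
open scoped ENNReal

/-- The law of an i.i.d. environment. -/
noncomputable def PG (G : Measure ℝ) [IsProbabilityMeasure G] : Measure Env :=
  Measure.infinitePi (fun _ : latt.edgeSet => G)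

variable {G : Measure ℝ} [IsProbabilityMeasure G] {m : ℝ}

instance : IsProbabilityMeasure (PG G) := by unfold PG; infer_instance

theorem mp_perm (σ : latt.edgeSet ≃ latt.edgeSet) :
    MeasurePreserving (fun (t : Env) e => t (σ e)) (PG G) (PG G) := by
  classical
  have hm : Measurable (fun (t : Env) (e : latt.edgeSet) => t (σ e)) :=
    measurable_pi_lambda _ fun e => measurable_pi_apply _
  refine ⟨hm, ?_⟩
  refine Measure.eq_infinitePi _ fun s t ht => ?_
  rw [Measure.map_apply hm (MeasurableSet.pi s.countable_toSet fun i _ => ht i)]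
  have e1 : (fun (t : Env) (e : latt.edgeSet) => t (σ e)) ⁻¹' (Set.pi s t) =
      Set.pi (s.map σ.toEmbedding : Finset latt.edgeSet) (fun e => t (σ.symm e)) := by
    ext x
    simp only [Set.mem_preimage, Set.mem_pi, Finset.mem_coe, Finset.mem_map,
      Equiv.coe_toEmbedding]
    constructor
    · rintro h _ ⟨e, he, rfl⟩
      rw [Equiv.symm_apply_apply]
      exact h e he
    · intro h e he
      have := h (σ e) ⟨e, he, rfl⟩
      rwa [Equiv.symm_apply_apply] at this
  rw [e1]
  unfold PG
  rw [Measure.infinitePi_pi _ fun i _ => ht _, Finset.prod_map]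
  simp

theorem mp_update (e : latt.edgeSet) :
    MeasurePreserving (fun p : Env × ℝ => Function.update p.1 e p.2) ((PG G).prod G) (PG G) := by
  classical
  have hm : Measurable (fun p : Env × ℝ => Function.update p.1 e p.2) := by
    refine measurable_pi_lambda _ fun i => ?_
    by_cases h : i = e
    · subst h
      simp only [Function.update_self]
      exact measurable_snd
    · simp only [Function.update_of_ne h]
      exact (measurable_pi_apply i).comp measurable_fst
  refine ⟨hm, ?_⟩
  refine Measure.eq_infinitePi _ fun s t ht => ?_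
  rw [Measure.map_apply hm (MeasurableSet.pi s.countable_toSet fun i _ => ht i)]
  by_cases he : e ∈ s
  · have e1 : (fun p : Env × ℝ => Function.update p.1 e p.2) ⁻¹' (Set.pi s t) =
        (Set.pi (s.erase e : Finset latt.edgeSet) t) ×ˢ (t e) := by
      ext ⟨x, r⟩
      simp only [Set.mem_preimage, Set.mem_pi, Finset.mem_coe, Finset.mem_erase, Set.mem_prod]
      constructor
      · intro h
        refine ⟨fun i hi => ?_, ?_⟩
        · have := h i hi.2
          rwa [Function.update_of_ne hi.1] at this
        · have := h e he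
          rwa [Function.update_self] at this
      · rintro ⟨h1, h2⟩ i hi
        by_cases hie : i = e
        · subst hie; rwa [Function.update_self]
        · rw [Function.update_of_ne hie]; exact h1 i ⟨hie, hi⟩
    rw [e1, Measure.prod_prod]
    unfold PG
    rw [Measure.infinitePi_pi _ fun i _ => ht _, Finset.prod_erase_mul _ _ he]
  · have e1 : (fun p : Env × ℝ => Function.update p.1 e p.2) ⁻¹' (Set.pi s t) =
        (Set.pi (s : Finset latt.edgeSet) t) ×ˢ Set.univ := by
      ext ⟨x, r⟩
      simp only [Set.mem_preimage, Set.mem_pi, Finset.mem_coe, Set.mem_prod, Set.mem_univ,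
        and_true]
      refine forall_congr' fun i => forall_congr' fun hi => ?_
      have hie : i ≠ e := fun h => he (h ▸ hi)
      rw [Function.update_of_ne hie]
    rw [e1, Measure.prod_prod, measure_univ, mul_one]
    unfold PG
    rw [Measure.infinitePi_pi _ fun i _ => ht _]

/-- Resampling one edge. -/
theorem null_of_section [NullSingletonClass G] {A : Set Env} (hA : MeasurableSet A) (e : latt.edgeSet)
    (h : ∀ (t : Env) (s₀ s₁ : ℝ), s₀ < s₁ → Function.update t e s₀ ∈ A →
      Function.update t e s₁ ∈ A → False) : PG G A = 0 := by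
  have hmp := mp_update (G := G) e
  rw [← hmp.measure_preimage hA.nullMeasurableSet,
    Measure.measure_prod_null (hmp.measurable hA)]
  refine Eventually.of_forall fun t => ?_
  refine Set.Subsingleton.measure_zero ?_ G
  intro a ha b hb
  by_contra hab
  rcases lt_or_gt_of_ne hab with hlt | hlt
  · exact h t a b hlt ha hb
  · exact h t b a hlt hb ha

/-- Translation as a graph isomorphism. -/
def shIso (u : V) : latt ≃g latt where
  toEquiv := Equiv.addRight u
  map_rel_iff' := adj_add_iff u

/-- Environment seen through a graph automorphism. -/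
def isoE (φ : latt ≃g latt) (t : Env) : Env := fun e => t (φ.mapEdgeSet e)

theorem wt_isoE (φ : latt ≃g latt) (t : Env) (x y : V) :
    wt (isoE φ t) x y = wt t (φ x) (φ y) := by
  unfold wt
  by_cases h : latt.Adj x y
  · rw [dif_pos h, dif_pos (φ.map_adj_iff.2 h)]
    rfl
  · rw [dif_neg h, dif_neg (fun h' => h (φ.map_adj_iff.1 h'))]

/-- Translated environment. -/
def shE (u : V) (t : Env) : Env := isoE (shIso u) t

theorem wt_shE (u : V) (t : Env) : wt (shE u t) = sh u (wt t) := by
  funext x y
  exact wt_isoE (shIso u) t x y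

theorem mp_iso (φ : latt ≃g latt) : MeasurePreserving (isoE φ) (PG G) (PG G) :=
  mp_perm φ.mapEdgeSet

theorem mp_sh (u : V) : MeasurePreserving (shE u) (PG G) (PG G) := mp_iso (shIso u)

theorem ae_shift {Q : Env → Prop} (h : ∀ᵐ t ∂PG G, Q t) : ∀ᵐ t ∂PG G, ∀ u, Q (shE u t) :=
  ae_all_iff.2 fun u => (mp_sh u).quasiMeasurePreserving.ae h

/-- Mass transport. -/
theorem mtp (f : Env → V → V → ℝ≥0∞) (hf : ∀ x y, Measurable fun t => f t x y)
    (hinv : ∀ᵐ t ∂PG G, ∀ u x y, f (shE u t) x y = f t (x + u) (y + u)) :
    ∫⁻ t, ∑' y, f t 0 y ∂PG G = ∫⁻ t, ∑' y, f t y 0 ∂PG G := by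
  rw [lintegral_tsum fun y => (hf 0 y).aemeasurable,
    lintegral_tsum fun y => (hf y 0).aemeasurable]
  have key : ∀ u : V, ∫⁻ t, f t u 0 ∂PG G = ∫⁻ t, f t 0 (-u) ∂PG G := by
    intro u
    rw [← (mp_sh (G := G) u).lintegral_comp (hf 0 (-u))]
    refine lintegral_congr_ae ?_
    filter_upwards [hinv] with t ht
    rw [ht]
    simp
  simp only [key]
  exact ((Equiv.neg V).tsum_eq (fun y => ∫⁻ t, f t 0 y ∂PG G)).symm

theorem wt_symm (t : Env) (x y : V) : wt t x y = wt t y x := by
  unfold wt
  by_cases h : latt.Adj x y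
  · rw [dif_pos h, dif_pos h.symm]
    congr 2
    exact Sym2.eq_swap
  · rw [dif_neg h, dif_neg (fun h' => h h'.symm)]

theorem ae_adm [NullSingletonClass G] (hG : G (Set.Iio 0) = 0) : ∀ᵐ t ∂PG G, Adm (wt t) := by
  have h0 : G (Set.Iic 0) = 0 := by
    rw [← Set.Iio_union_right, measure_union_null_iff]
    exact ⟨hG, measure_singleton _⟩
  have h : ∀ᵐ t ∂PG G, ∀ e : latt.edgeSet, 0 < t e := by
    rw [ae_all_iff]
    intro e
    have hmp : MeasurePreserving (fun t : Env => t e) (PG G) G :=
      measurePreserving_eval_infinitePi (fun _ : latt.edgeSet => G) e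
    have : ∀ᵐ s ∂G, 0 < s := by
      rw [ae_iff]
      simp only [not_lt]
      exact h0
    exact hmp.quasiMeasurePreserving.ae this
  filter_upwards [h] with t ht
  refine ⟨wt_symm t, fun x y hxy => ?_⟩
  unfold wt
  rw [dif_pos hxy]
  exact ht _

theorem wt_update_self (t : Env) {x y : V} (h : latt.Adj x y) (s : ℝ) :
    wt (Function.update t ⟨s(x, y), h⟩ s) x y = s := by
  unfold wt
  rw [dif_pos h, Function.update_self]

theorem wt_update_of_ne (t : Env) {x y : V} (h : latt.Adj x y) (s : ℝ) {a b : V}
    (hab : s(a, b) ≠ s(x, y)) : wt (Function.update t ⟨s(x, y), h⟩ s) a b = wt t a b := by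
  unfold wt
  by_cases h' : latt.Adj a b
  · rw [dif_pos h', dif_pos h', Function.update_of_ne]
    intro h2
    exact hab (congrArg Subtype.val h2)
  · rw [dif_neg h', dif_neg h']

end Vale.Agent.P158
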