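import Vale.Agent.P158.Basic
import Mathlib.Topology.Order.MonotoneConvergence
import Mathlib.Topology.Instances.Real.Lemmas
import Mathlib.Algebra.Order.Floor.Ring

/-! Geodesic rays and their Busemann functions. -/

namespace Vale.Agent.P158

open Filter

variable {w : V → V → ℝ} {m : ℝ} {r r' : ℕ → V}

theorem conn_of_path {S : Set V} (hadj : ∀ i, latt.Adj (r i) (r (i + 1))) {i : ℕ} (n : ℕ)
    (hS : ∀ k, i ≤ k → k ≤ i + n → r k ∈ S) : Conn S (r i) (r (i + n)) := by
  induction n with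
  | zero => exact Conn.refl' (hS i le_rfl (by omega))
  | succ n ih =>
    refine (ih fun k h1 h2 => hS k h1 (by omega)).trans' ?_
    exact Conn.of_adj (hadj (i + n)) (hS _ (by omega) (by omega)) (hS _ (by omega) (by omega))

theorem PT_le_sum {S : Set V} (hw : Adm w) (hadj : ∀ i, latt.Adj (r i) (r (i + 1))) {i : ℕ}
    (n : ℕ) (hS : ∀ k, i ≤ k → k ≤ i + n → r k ∈ S) :
    PT w S (r i) (r (i + n)) ≤ ∑ k ∈ Finset.Ico i (i + n), w (r k) (r (k + 1)) := by
  induction n with
  | zero => simp [PT_self hw]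
  | succ n ih =>
    have h1 := ih fun k h1 h2 => hS k h1 (by omega)
    have hc := conn_of_path (S := S) hadj (i := i) n fun k h1 h2 => hS k h1 (by omega)
    have hn := hS (i + n) (by omega) (by omega)
    have hn1 := hS (i + n + 1) (by omega) (by omega)
    have h2 := PT_triangle hw hc (Conn.of_adj (hadj (i + n)) hn hn1)
    have h3 := PT_adj_le hw (hadj (i + n)) hn hn1
    rw [← add_assoc, Finset.sum_Ico_succ_top (by omega)]
    linarith

theorem T_le_sum (hw : Adm w) (hadj : ∀ i, latt.Adj (r i) (r (i + 1))) {i j : ℕ}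
    (hij : i ≤ j) : T w (r i) (r j) ≤ ∑ k ∈ Finset.Ico i j, w (r k) (r (k + 1)) := by
  obtain ⟨n, rfl⟩ := Nat.exists_eq_add_of_le hij
  exact PT_le_sum hw hadj n fun _ _ _ => Set.mem_univ _

theorem IsRay.sum_Ico (hw : Adm w) (hr : IsRay w r) {i j : ℕ} (hij : i ≤ j) :
    ∑ k ∈ Finset.Ico i j, w (r k) (r (k + 1)) = T w (r i) (r j) := by
  refine le_antisymm ?_ (T_le_sum hw hr.1 hij)
  have h1 := hr.2 j
  have h2 := hr.2 i
  have h3 := T_triangle hw (r 0) (r i) (r j)
  have h4 := Finset.sum_range_add_sum_Ico (fun k => w (r k) (r (k + 1))) hij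
  linarith

theorem IsRay.tail (hw : Adm w) (hr : IsRay w r) (n : ℕ) : IsRay w (fun i => r (i + n)) := by
  refine ⟨fun i => ?_, fun k => ?_⟩
  · have := hr.1 (i + n)
    rwa [add_right_comm] at this
  · have := hr.sum_Ico hw (Nat.le_add_left n k)
    rw [← zero_add n] at this ⊢
    simp only [zero_add] at this ⊢
    rw [← this, Finset.sum_Ico_eq_sum_range, Nat.add_sub_cancel]
    refine Finset.sum_congr rfl fun i _ => ?_
    rw [add_right_comm, add_comm i n]

theorem IsRay.add (hw : Adm w) (hr : IsRay w r) {i j k : ℕ} (hij : i ≤ j) (hjk : j ≤ k) :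
    T w (r i) (r k) = T w (r i) (r j) + T w (r j) (r k) := by
  rw [← hr.sum_Ico hw hij, ← hr.sum_Ico hw hjk, ← hr.sum_Ico hw (hij.trans hjk),
    Finset.sum_Ico_consecutive _ hij hjk]

theorem IsRay.step (hw : Adm w) (hr : IsRay w r) (i : ℕ) :
    T w (r i) (r (i + 1)) = w (r i) (r (i + 1)) := by
  rw [← hr.sum_Ico hw (Nat.le_succ i)]; simp

theorem IsRay.pos (hw : Adm w) (hr : IsRay w r) {i j : ℕ} (hij : i < j) :
    0 < T w (r i) (r j) := by
  rw [← hr.sum_Ico hw hij.le]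
  refine Finset.sum_pos (fun k _ => hw.pos _ _ (hr.1 k)) ?_
  rwa [Finset.nonempty_Ico]

theorem IsRay.injective (hw : Adm w) (hr : IsRay w r) : Function.Injective r := by
  intro i j hij
  by_contra hne
  rcases lt_or_gt_of_ne hne with h | h
  · have := hr.pos hw h
    rw [hij, T_self hw] at this
    exact lt_irrefl _ this
  · have := hr.pos hw h
    rw [hij, T_self hw] at this
    exact lt_irrefl _ this

theorem bus_antitone (hw : Adm w) (hr : IsRay w r) (x : V) :
    Antitone (fun n => T w x (r n) - T w (r 0) (r n)) := by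
  refine antitone_nat_of_succ_le fun n => ?_
  have h1 := hr.add hw (Nat.zero_le n) (Nat.le_succ n)
  have h2 := T_triangle hw x (r n) (r (n + 1))
  simp only [Nat.succ_eq_add_one] at h1
  linarith

theorem bus_bdd (hw : Adm w) (r : ℕ → V) (x : V) :
    BddBelow (Set.range fun n : ℕ => T w x (r n) - T w (r 0) (r n)) := by
  refine ⟨- T w x (r 0), ?_⟩
  rintro _ ⟨n, rfl⟩
  have := T_triangle hw (r 0) x (r n)
  rw [T_comm hw (r 0) x] at this
  simp only
  linarith

theorem tendsto_bus (hw : Adm w) (hr : IsRay w r) (x : V) :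
    Tendsto (fun n => T w x (r n) - T w (r 0) (r n)) atTop (nhds (bus w r x)) :=
  tendsto_atTop_ciInf (bus_antitone hw hr x) (bus_bdd hw r x)

theorem bus_le (hw : Adm w) (r : ℕ → V) (x : V) (n : ℕ) :
    bus w r x ≤ T w x (r n) - T w (r 0) (r n) :=
  ciInf_le (bus_bdd hw r x) n

theorem bus_sub_le (hw : Adm w) (hr : IsRay w r) (x y : V) :
    bus w r x - bus w r y ≤ T w x y := by
  refine le_of_tendsto' ((tendsto_bus hw hr x).sub (tendsto_bus hw hr y)) fun n => ?_
  have := T_triangle hw x y (r n)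
  linarith

theorem bus_self (hw : Adm w) (hr : IsRay w r) (i : ℕ) :
    bus w r (r i) = - T w (r 0) (r i) := by
  refine tendsto_nhds_unique (tendsto_bus hw hr (r i)) ?_
  refine tendsto_const_nhds.congr' ?_
  filter_upwards [eventually_ge_atTop i] with n hn
  rw [hr.add hw (Nat.zero_le i) hn]
  ring

theorem bus_tail (hw : Adm w) (hr : IsRay w r) (n : ℕ) (x : V) :
    bus w (fun i => r (i + n)) x = bus w r x + T w (r 0) (r n) := by
  refine tendsto_nhds_unique (tendsto_bus hw (hr.tail hw n) x) ?_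
  have h := ((tendsto_add_atTop_iff_nat n).2 (tendsto_bus hw hr x)).add_const (T w (r 0) (r n))
  refine h.congr fun i => ?_
  have := hr.add hw (Nat.zero_le n) (Nat.le_add_left n i)
  simp only [zero_add]
  linarith

theorem bus_step_ray (hw : Adm w) (hr : IsRay w r) (i : ℕ) :
    bus w r (r i) - bus w r (r (i + 1)) = w (r i) (r (i + 1)) := by
  rw [bus_self hw hr, bus_self hw hr, hr.add hw (Nat.zero_le i) (Nat.le_succ i)]
  have := hr.step hw i
  simp only [Nat.succ_eq_add_one]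
  linarith

theorem Slope.tail (hs : Slope m r) (n : ℕ) : Slope m (fun i => r (i + n)) := fun q =>
  (tendsto_add_atTop_nat n).eventually (hs q)

theorem adj_fst_le {x y : V} (h : latt.Adj x y) : y.1 ≤ x.1 + 1 := by
  have h' : |x.1 - y.1| + |x.2 - y.2| = 1 := h
  have h1 := neg_abs_le (x.1 - y.1)
  have h2 := abs_nonneg (x.2 - y.2)
  omega

/-- First hit of a column. -/
theorem exists_hit (hr : IsRay w r) (hs : Slope m r) {N : ℤ} (hN : (r 0).1 ≤ N) :
    ∃ n, (r n).1 = N ∧ ∀ i, i ≤ n → (r i).1 ≤ N := by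
  have hex : ∃ i, N ≤ (r i).1 := by
    obtain ⟨q, hq⟩ := exists_nat_ge (N : ℝ)
    obtain ⟨i, hi⟩ := (hs q).exists
    refine ⟨i, ?_⟩
    have := hq.trans hi.2
    exact_mod_cast this
  classical
  refine ⟨Nat.find hex, ?_, fun i hi => ?_⟩
  · refine le_antisymm ?_ (Nat.find_spec hex)
    rcases Nat.eq_zero_or_pos (Nat.find hex) with h0 | h0
    · rw [h0]; exact hN
    · have h1 := Nat.find_min hex (Nat.sub_lt h0 one_pos)
      have h2 := adj_fst_le (hr.1 (Nat.find hex - 1))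
      rw [Nat.sub_add_cancel h0] at h2
      omega
  · rcases Nat.lt_or_ge i (Nat.find hex) with h | h
    · exact (not_le.1 (Nat.find_min hex h)).le
    · have : i = Nat.find hex := le_antisymm hi h
      rw [this]
      rcases Nat.eq_zero_or_pos (Nat.find hex) with h0 | h0
      · rw [h0]; exact hN
      · have h1 := Nat.find_min hex (Nat.sub_lt h0 one_pos)
        have h2 := adj_fst_le (hr.1 (Nat.find hex - 1))
        rw [Nat.sub_add_cancel h0] at h2
        omega

theorem eventually_hit_gt (r : ℕ → V) (n : ℕ) :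
    ∀ᶠ N : ℤ in atTop, ∀ i, (r i).1 = N → n < i := by
  have : ∀ᶠ N : ℤ in atTop, ∀ i ∈ Finset.range (n + 1), (r i).1 < N :=
    (Finset.eventually_all _).2 fun i _ => eventually_gt_atTop _
  filter_upwards [this] with N hN i hi
  by_contra h
  have := hN i (Finset.mem_range.2 (by omega))
  omega

theorem eventually_walk_HN {x y : V} (p : latt.Walk x y) :
    ∀ᶠ N : ℤ in atTop, ∀ z ∈ p.support, z ∈ HN N := by
  have : ∀ᶠ N : ℤ in atTop, ∀ z ∈ p.support.toFinset, z.1 ≤ N :=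
    (Finset.eventually_all _).2 fun i _ => eventually_ge_atTop _
  filter_upwards [this] with N hN z hz
  exact hN z (List.mem_toFinset.2 hz)

/-- Half-plane passage times to first hits compute the Busemann function. -/
theorem hit_bus (hw : Adm w) (hr : IsRay w r) (x : V) {ε : ℝ} (hε : 0 < ε) :
    ∀ᶠ N : ℤ in atTop, ∀ n, (r n).1 = N → (∀ i, i ≤ n → (r i).1 ≤ N) →
      |PT w (HN N) x (r n) - T w (r 0) (r n) - bus w r x| ≤ ε := by
  obtain ⟨n₀, hn₀⟩ := ((tendsto_bus hw hr x).eventually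
    (gt_mem_nhds (lt_add_of_pos_right (bus w r x) (half_pos hε)))).exists
  obtain ⟨p, -, hp⟩ := exists_walk hw (conn_univ x (r n₀)) (half_pos hε)
  filter_upwards [eventually_hit_gt r n₀, eventually_walk_HN p, eventually_ge_atTop x.1]
    with N hN1 hN2 hN3 n hn hn'
  have hlt := hN1 n hn
  have hrn : r n ∈ HN N := hn' n le_rfl
  have hx : x ∈ HN N := hN3
  have hrn₀ : r n₀ ∈ HN N := hn' n₀ hlt.le
  have h1 : T w x (r n) ≤ PT w (HN N) x (r n) := T_le_PT hw (conn_HN hx hrn)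
  have h2 := bus_le hw r x n
  have h3 : PT w (HN N) x (r n₀) ≤ ww w p := PT_le hw p hN2
  have h4 : PT w (HN N) (r n₀) (r n) ≤ T w (r n₀) (r n) := by
    rw [← hr.sum_Ico hw hlt.le]
    obtain ⟨d, rfl⟩ := Nat.exists_eq_add_of_le hlt.le
    exact PT_le_sum hw hr.1 d fun k _ hk => hn' k hk
  have h5 := PT_triangle hw (conn_HN hx hrn₀) (conn_HN hrn₀ hrn)
  have h6 := hr.add hw (Nat.zero_le n₀) hlt.le
  have hp' : ww w p < T w x (r n₀) + ε / 2 := hp
  rw [abs_le]
  constructor <;> linarith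

theorem eventually_J (hs : Slope m r) (z : V) (k : ℕ) :
    ∀ᶠ N : ℤ in atTop, ∀ n, (r n).1 = N → J m z k N (r n).2 := by
  obtain ⟨n₀, hn₀⟩ := eventually_atTop.1 (hs (2 * k))
  have hbig : ∀ᶠ N : ℤ in atTop,
      (k : ℝ) * (|(z.2 : ℝ)| + |m| * |(z.1 : ℝ)|) + (z.1 : ℝ) ≤ (N : ℝ) / 2 := by
    obtain ⟨M, hM⟩ := exists_nat_ge
      (2 * ((k : ℝ) * (|(z.2 : ℝ)| + |m| * |(z.1 : ℝ)|) + (z.1 : ℝ)))
    filter_upwards [eventually_ge_atTop (M : ℤ)] with N hN
    have : (M : ℝ) ≤ (N : ℝ) := by exact_mod_cast hN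
    linarith
  filter_upwards [eventually_hit_gt r n₀, hbig] with N hN1 hN2 n hn
  have h1 := (hn₀ n (hN1 n hn).le).1
  rw [hn] at h1
  unfold J
  push_cast at h1 ⊢
  have h2 : |((r n).2 : ℝ) - (z.2 : ℝ) - m * ((N : ℝ) - (z.1 : ℝ))| ≤
      |((r n).2 : ℝ) - m * (N : ℝ)| + (|(z.2 : ℝ)| + |m| * |(z.1 : ℝ)|) := by
    have e : ((r n).2 : ℝ) - (z.2 : ℝ) - m * ((N : ℝ) - (z.1 : ℝ)) =
      (((r n).2 : ℝ) - m * (N : ℝ)) + (-(z.2 : ℝ) + m * (z.1 : ℝ)) := by ring
    rw [e]
    refine (abs_add_le _ _).trans (add_le_add le_rfl ?_)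
    refine (abs_add_le _ _).trans ?_
    rw [abs_neg, abs_mul]
  have h3 := mul_le_mul_of_nonneg_left h2 (Nat.cast_nonneg (α := ℝ) k)
  rw [mul_add] at h3
  linarith

/-- First hits of far columns by a ray of slope `m` compute its Busemann function. -/
theorem ray_hit (hw : Adm w) (hr : IsRay w r) (hs : Slope m r) (x y z : V) (k : ℕ)
    {ε : ℝ} (hε : 0 < ε) :
    ∀ᶠ N : ℤ in atTop, ∃ j : ℤ, J m z k N j ∧
      |g w N x y j - (bus w r x - bus w r y)| ≤ ε := by
  filter_upwards [hit_bus hw hr x (half_pos hε), hit_bus hw hr y (half_pos hε),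
    eventually_J hs z k, eventually_ge_atTop (r 0).1] with N h1 h2 h3 h4
  obtain ⟨n, hn, hn'⟩ := exists_hit hr hs h4
  refine ⟨(r n).2, h3 n hn, ?_⟩
  have e : ((N, (r n).2) : V) = r n := by rw [← hn]
  have a1 := h1 n hn hn'
  have a2 := h2 n hn hn'
  unfold g
  rw [e]
  rw [abs_le] at a1 a2 ⊢
  constructor <;> linarith [a1.1, a1.2, a2.1, a2.2]

/-- Along a step every ray of slope `m` has Busemann increment equal to the weight. -/
theorem bus_step (hw : Adm w) (hr : IsRay w r) (hs : Slope m r) {z a : V}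
    (h : Step w m z a) : bus w r z - bus w r a = w z a := by
  refine le_antisymm ((bus_sub_le hw hr z a).trans (T_adj_le hw h.1)) ?_
  refine le_of_forall_pos_le_add fun δ hδ => ?_
  obtain ⟨n, hn⟩ := exists_nat_one_div_lt (half_pos hδ)
  obtain ⟨k, hk⟩ := h.2.1 n
  obtain ⟨N, hN1, j, hj, hj'⟩ := (hk.and_eventually
    (ray_hit hw hr hs z a z k (half_pos hδ))).exists
  have := hN1 j hj
  rw [abs_le] at hj'
  linarith [hj'.1, hj'.2]

theorem bus_eq (hw : Adm w) (hr : IsRay w r) (hs : Slope m r) (hr' : IsRay w r')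
    (hs' : Slope m r') {x y : V} (hsm : Small w m x y) :
    bus w r x - bus w r y = bus w r' x - bus w r' y := by
  have key : ∀ {r r' : ℕ → V}, IsRay w r → Slope m r → IsRay w r' → Slope m r' →
      bus w r x - bus w r y ≤ bus w r' x - bus w r' y := by
    intro r r' hr hs hr' hs'
    refine le_of_forall_pos_le_add fun δ hδ => ?_
    obtain ⟨n, hn⟩ := exists_nat_one_div_lt (div_pos hδ (by norm_num : (0 : ℝ) < 3))
    obtain ⟨k, hk⟩ := hsm n
    obtain ⟨N, hN1, ⟨j, hj, hj1⟩, ⟨j', hj', hj1'⟩⟩ := (hk.and_eventually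
      ((ray_hit hw hr hs x y x k (div_pos hδ (by norm_num : (0 : ℝ) < 3))).and
        (ray_hit hw hr' hs' x y x k (div_pos hδ (by norm_num : (0 : ℝ) < 3))))).exists
    have := hN1 j j' hj hj'
    rw [abs_le] at hj1 hj1'
    linarith [hj1.1, hj1.2, hj1'.1, hj1'.2]
  exact le_antisymm (key hr hs hr' hs') (key hr' hs' hr hs)

theorem step_of_ray (hw : Adm w) (hr : IsRay w r) (hs : Slope m r)
    (hsm : ∀ x y, Small w m x y) (i : ℕ) : Step w m (r i) (r (i + 1)) := by
  have hB := bus_step_ray hw hr i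
  refine ⟨hr.1 i, fun n => ?_, fun n k => ?_⟩
  · obtain ⟨k, hk⟩ := hsm (r i) (r (i + 1)) (2 * n + 1)
    refine ⟨k, ?_⟩
    have hpos : (0 : ℝ) < 1 / (2 * ((n : ℝ) + 1)) := by positivity
    refine (hk.and_eventually (ray_hit hw hr hs (r i) (r (i + 1)) (r i) k hpos)).mono ?_
    rintro N ⟨hN1, j, hj, hj'⟩ j' hj''
    have h1 := hN1 j j' hj hj''
    rw [abs_le, hB] at hj'
    have e : 1 / (((2 * n + 1 : ℕ) : ℝ) + 1) = 1 / (2 * ((n : ℝ) + 1)) := by
      push_cast; congr 1; ring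
    rw [e] at h1
    have e2 : 1 / (2 * ((n : ℝ) + 1)) + 1 / (2 * ((n : ℝ) + 1)) = 1 / ((n : ℝ) + 1) := by
      field_simp; ring
    linarith [hj'.1, hj'.2]
  · have hpos : (0 : ℝ) < 1 / ((n : ℝ) + 1) := by positivity
    filter_upwards [ray_hit hw hr hs (r i) (r (i + 1)) (r i) k hpos] with N hN
    obtain ⟨j, hj, hj'⟩ := hN
    refine ⟨j, hj, ?_⟩
    rw [abs_le, hB] at hj'
    linarith [hj'.1]

end Vale.Agent.P158
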