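import Vale.Agent.P158.Ray
import Vale.Agent.P158.Planar

/-! Trunks: vertices on biinfinite step orbits. -/

namespace Vale.Agent.P158

open Filter

open Classical in
/-- The (first) step from `z`. -/
noncomputable def phi (w : V → V → ℝ) (m : ℝ) (z : V) : V :=
  if Step w m z (z.1 + 1, z.2) then (z.1 + 1, z.2) else
  if Step w m z (z.1 - 1, z.2) then (z.1 - 1, z.2) else
  if Step w m z (z.1, z.2 + 1) then (z.1, z.2 + 1) else
  if Step w m z (z.1, z.2 - 1) then (z.1, z.2 - 1) else z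

/-- The orbit of `z`. -/
noncomputable def orb (w : V → V → ℝ) (m : ℝ) (z : V) (n : ℕ) : V := (phi w m)^[n] z

/-- Good weight functions. -/
structure Good (w : V → V → ℝ) (m : ℝ) : Prop where
  adm : Adm w
  small : ∀ x y, Small w m x y
  uniq : ∀ z a a', Step w m z a → Step w m z a' → a = a'

/-- The orbit of `z` is a geodesic ray of slope `m`. -/
def Orb (w : V → V → ℝ) (m : ℝ) (z : V) : Prop :=
  IsRay w (orb w m z) ∧ Slope m (orb w m z)

/-- `v` lies on a trunk. -/
def Trunk (w : V → V → ℝ) (m : ℝ) (v : V) : Prop :=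
  ∀ n : ℕ, ∃ u, orb w m u n = v ∧ Orb w m u

/-- The orbits of `u` and `v` merge. -/
def Same (w : V → V → ℝ) (m : ℝ) (u v : V) : Prop :=
  ∃ n k : ℕ, orb w m u n = orb w m v k

variable {w : V → V → ℝ} {m : ℝ} {u v x y z a : V}

theorem phi_eq (hg : Good w m) (h : Step w m z a) : phi w m z = a := by
  have key : ∀ b, Step w m z b → b = a := fun b hb => hg.uniq z b a hb h
  unfold phi
  by_cases h1 : Step w m z (z.1 + 1, z.2)
  · rw [if_pos h1]; exact key _ h1
  rw [if_neg h1]
  by_cases h2 : Step w m z (z.1 - 1, z.2)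
  · rw [if_pos h2]; exact key _ h2
  rw [if_neg h2]
  by_cases h3 : Step w m z (z.1, z.2 + 1)
  · rw [if_pos h3]; exact key _ h3
  rw [if_neg h3]
  by_cases h4 : Step w m z (z.1, z.2 - 1)
  · rw [if_pos h4]; exact key _ h4
  exfalso
  rcases adj_cases h.1 with ⟨e1, e2⟩ | ⟨e1, e2⟩ | ⟨e1, e2⟩ | ⟨e1, e2⟩
  · exact h1 (by rwa [← e1, ← e2])
  · exact h2 (by rwa [← e1, ← e2])
  · exact h3 (by rwa [← e1, ← e2])
  · exact h4 (by rwa [← e1, ← e2])

theorem orb_zero (w : V → V → ℝ) (m : ℝ) (z : V) : orb w m z 0 = z := rfl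

theorem orb_succ (w : V → V → ℝ) (m : ℝ) (z : V) (n : ℕ) :
    orb w m z (n + 1) = phi w m (orb w m z n) := Function.iterate_succ_apply' _ _ _

theorem orb_succ' (w : V → V → ℝ) (m : ℝ) (z : V) (n : ℕ) :
    orb w m z (n + 1) = orb w m (phi w m z) n := Function.iterate_succ_apply _ _ _

theorem orb_add (w : V → V → ℝ) (m : ℝ) (z : V) (n k : ℕ) :
    orb w m z (n + k) = orb w m (orb w m z k) n := Function.iterate_add_apply _ _ _ _

theorem orb_orb (w : V → V → ℝ) (m : ℝ) (z : V) (k : ℕ) :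
    orb w m (orb w m z k) = fun i => orb w m z (i + k) := by
  funext i; rw [orb_add]

theorem orb_ray (hg : Good w m) {r : ℕ → V} (hr : IsRay w r) (hs : Slope m r) (n : ℕ) :
    orb w m (r 0) n = r n := by
  induction n with
  | zero => rfl
  | succ n ih =>
    rw [orb_succ, ih]
    exact phi_eq hg (step_of_ray hg.adm hr hs hg.small n)

theorem Orb.of_ray (hg : Good w m) {r : ℕ → V} (hr : IsRay w r) (hs : Slope m r) :
    Orb w m (r 0) := by
  have : orb w m (r 0) = r := funext (orb_ray hg hr hs)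
  unfold Orb
  rw [this]
  exact ⟨hr, hs⟩

theorem Orb.orb (hw : Adm w) (h : Orb w m z) (n : ℕ) : Orb w m (orb w m z n) := by
  unfold Orb
  rw [orb_orb]
  exact ⟨h.1.tail hw n, h.2.tail n⟩

theorem Trunk.toOrb (h : Trunk w m v) : Orb w m v := by
  obtain ⟨u, hu, h⟩ := h 0
  rw [orb_zero] at hu
  rwa [← hu]

theorem Trunk.phi (hw : Adm w) (h : Trunk w m v) : Trunk w m (phi w m v) := by
  intro n
  cases n with
  | zero => exact ⟨_, rfl, h.toOrb.orb hw 1⟩
  | succ n =>
    obtain ⟨u, hu, h'⟩ := h n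
    exact ⟨u, by rw [orb_succ, hu], h'⟩

theorem Trunk.orb (hw : Adm w) (h : Trunk w m v) (n : ℕ) : Trunk w m (orb w m v n) := by
  induction n with
  | zero => exact h
  | succ n ih => rw [orb_succ]; exact ih.phi hw

theorem Trunk.pred (hw : Adm w) (h : Trunk w m v) :
    ∃ u, Trunk w m u ∧ Vale.Agent.P158.phi w m u = v := by
  by_contra hcon
  push Not at hcon
  have h1 : ∀ c : V, Vale.Agent.P158.phi w m c = v →
      ∃ n : ℕ, ∀ u, Vale.Agent.P158.orb w m u n = c → ¬ Orb w m u := by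
    intro c hc
    by_contra h2
    push Not at h2
    exact hcon c h2 hc
  choose! f hf using h1
  set M := max (f (v.1 + 1, v.2)) (max (f (v.1 - 1, v.2)) (max (f (v.1, v.2 + 1))
    (f (v.1, v.2 - 1)))) with hM
  obtain ⟨u, hu, hu'⟩ := h (M + 1)
  set c := Vale.Agent.P158.orb w m u M with hc
  have hcv : Vale.Agent.P158.phi w m c = v := by rw [hc, ← orb_succ, hu]
  have hadj : latt.Adj v c := by
    have := hu'.1.1 M
    rw [hu] at this
    exact this.symm
  have hle : f c ≤ M := by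
    rcases adj_cases hadj with ⟨e1, e2⟩ | ⟨e1, e2⟩ | ⟨e1, e2⟩ | ⟨e1, e2⟩
    · have : c = (v.1 + 1, v.2) := Prod.ext e1 e2
      rw [this, hM]; exact le_max_left _ _
    · have : c = (v.1 - 1, v.2) := Prod.ext e1 e2
      rw [this, hM]; exact le_trans (le_max_left _ _) (le_max_right _ _)
    · have : c = (v.1, v.2 + 1) := Prod.ext e1 e2
      rw [this, hM]
      exact le_trans (le_trans (le_max_left _ _) (le_max_right _ _)) (le_max_right _ _)
    · have : c = (v.1, v.2 - 1) := Prod.ext e1 e2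
      rw [this, hM]
      exact le_trans (le_trans (le_max_right _ _) (le_max_right _ _)) (le_max_right _ _)
  refine hf c hcv (Vale.Agent.P158.orb w m u (M - f c)) ?_ (hu'.orb hw _)
  rw [← orb_add, show f c + (M - f c) = M by omega]

theorem Same.refl (w : V → V → ℝ) (m : ℝ) (u : V) : Same w m u u := ⟨0, 0, rfl⟩

theorem Same.symm (h : Same w m u v) : Same w m v u := by
  obtain ⟨n, k, h⟩ := h
  exact ⟨k, n, h.symm⟩

theorem Same.trans (h : Same w m u v) (h' : Same w m v x) : Same w m u x := by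
  obtain ⟨n, k, h⟩ := h
  obtain ⟨n', k', h'⟩ := h'
  refine ⟨n' + n, k + k', ?_⟩
  rw [orb_add, h, ← orb_add, orb_add w m x, ← h', ← orb_add, add_comm]

theorem same_orb (w : V → V → ℝ) (m : ℝ) (u : V) (n : ℕ) : Same w m (orb w m u n) u :=
  ⟨0, n, rfl⟩

/-- Injectivity of the step on trunks. -/
def InjT (w : V → V → ℝ) (m : ℝ) : Prop :=
  ∀ u u', Trunk w m u → Trunk w m u' → phi w m u = phi w m u' → u = u'

theorem InjT.eq_of_orb (hw : Adm w) (hi : InjT w m) (hu : Trunk w m u) (hv : Trunk w m v) (n : ℕ)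
    (h : orb w m u n = orb w m v n) : u = v := by
  induction n with
  | zero => exact h
  | succ n ih =>
    rw [orb_succ, orb_succ] at h
    exact ih (hi _ _ (hu.orb hw n) (hv.orb hw n) h)

theorem Same.comparable (hw : Adm w) (hi : InjT w m) (hu : Trunk w m u) (hv : Trunk w m v)
    (h : Same w m u v) : ∃ n, orb w m u n = v ∨ orb w m v n = u := by
  obtain ⟨n, k, h⟩ := h
  rcases le_total n k with hnk | hnk
  · obtain ⟨d, rfl⟩ := Nat.exists_eq_add_of_le hnk
    rw [orb_add] at h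
    exact ⟨d, Or.inr (hi.eq_of_orb hw hu (hv.orb hw d) n h).symm⟩
  · obtain ⟨d, rfl⟩ := Nat.exists_eq_add_of_le hnk
    rw [orb_add] at h
    exact ⟨d, Or.inl (hi.eq_of_orb hw (hu.orb hw d) hv k h)⟩

/-- A biinfinite geodesic whose right end has slope `m` lies in the trunk set. -/
theorem trunk_of_bi (hg : Good w m) {γ : ℤ → V}
    (hr : ∀ n : ℤ, IsRay w (fun i : ℕ => γ (n + i)))
    (hs : ∀ n : ℤ, Slope m (fun i : ℕ => γ (n + i))) (n : ℤ) : Trunk w m (γ n) := by
  intro k
  refine ⟨γ (n - k), ?_, ?_⟩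
  · have := orb_ray hg (hr (n - k)) (hs (n - k)) k
    simpa using this
  · have := Orb.of_ray hg (hr (n - k)) (hs (n - k))
    simpa using this

theorem exists_bi (hw : Adm w) (hv : Trunk w m v) :
    ∃ γ : ℤ → V, γ 0 = v ∧ ∀ n, Trunk w m (γ n) ∧ phi w m (γ n) = γ (n + 1) := by
  have hpred : ∀ c : {c : V // Trunk w m c}, ∃ b : {c : V // Trunk w m c},
      phi w m b.1 = c.1 := fun c => by
    obtain ⟨b, hb, hb'⟩ := c.2.pred hw
    exact ⟨⟨b, hb⟩, hb'⟩
  choose ψ hψ using hpred
  refine ⟨fun n => if 0 ≤ n then orb w m v n.toNat else (ψ^[(-n).toNat] ⟨v, hv⟩).1,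
    by simp [orb_zero], fun n => ?_⟩
  rcases lt_or_ge n 0 with h | h
  · simp only [if_neg (not_le.2 h)]
    refine ⟨(ψ^[(-n).toNat] ⟨v, hv⟩).2, ?_⟩
    have e : (-n).toNat = (-(n + 1)).toNat + 1 := by omega
    rw [e, Function.iterate_succ_apply', hψ]
    rcases eq_or_lt_of_le (Int.add_one_le_iff.2 h) with h' | h'
    · rw [h']; simp [orb_zero]
    · rw [if_neg (not_le.2 h')]
  · simp only [if_pos h, if_pos (add_nonneg h zero_le_one)]
    refine ⟨hv.orb hw _, ?_⟩
    rw [← orb_succ]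
    congr 1
    omega

/-- Regret of `x` with respect to the orbit of `v`. -/
noncomputable def Reg (w : V → V → ℝ) (m : ℝ) (x v : V) : ℝ := T w x v - bus w (orb w m v) x

theorem Reg.nonneg (hw : Adm w) : 0 ≤ Reg w m x v := by
  have := bus_le hw (orb w m v) x 0
  rw [T_self hw, orb_zero] at this
  unfold Reg
  linarith

theorem bus_orb_phi (hw : Adm w) (hv : Orb w m v) (x : V) :
    bus w (orb w m (phi w m v)) x = bus w (orb w m v) x + T w v (phi w m v) := by
  have h1 := bus_tail hw hv.1 1 x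
  have h2 : orb w m (phi w m v) = fun i => orb w m v (i + 1) := orb_orb w m v 1
  rw [h2, h1]
  rfl

theorem Reg.phi_le (hw : Adm w) (hv : Orb w m v) : Reg w m x (phi w m v) ≤ Reg w m x v := by
  have h1 := bus_orb_phi hw hv x
  have h2 := T_triangle hw x v (phi w m v)
  unfold Reg
  linarith

theorem Reg.eq_orb (hw : Adm w) (hv : Orb w m v) (n : ℕ) :
    Reg w m x (orb w m v n) =
      T w x (orb w m v n) - T w v (orb w m v n) - bus w (orb w m v) x := by
  have h1 := bus_tail hw hv.1 n x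
  unfold Reg
  rw [orb_orb, h1, orb_zero]
  ring

theorem Reg.tendsto (hw : Adm w) (hv : Orb w m v) (x : V) :
    Tendsto (fun n => Reg w m x (orb w m v n)) atTop (nhds 0) := by
  have h := (tendsto_bus hw hv.1 x).sub_const (bus w (orb w m v) x)
  rw [sub_self] at h
  refine h.congr fun n => ?_
  rw [Reg.eq_orb hw hv]
  rfl

end Vale.Agent.P158
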